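import Vale.Agent.P042.H383.AtP
import Vale.Agent.P042.H362.CoreF

set_option autoImplicit false

/-!
P042, row D.2: transfer of the one-prime facts from the maximiser to its core.
-/

namespace Vale.Agent.P042.H383

open Finset Polynomial Vale.Agent.P042.H74 Vale.Agent.P042.SS Vale.Agent.P042.H954
open Vale.Agent.P042.H945 (Par Ok Om sp rs Mx Err ms core law_nonneg)
open Vale.Agent.P042.H599 (cm Law klu kl0)
open Vale.Agent.P042.H362 (be bd be_bound cm_split cm_bd_nonneg sum_bd core_lawF)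

section core

variable {ι : Type} {Q : Par ι} {N d M : ℕ} {A0 : Finset ℤ} {a : ℤ} {x : ℕ → ℝ} {L : ℝ}

/-- one class of the bad part -/
theorem cm_bd_le (hm : Mx Q N A0 d a M x L) {p : ℕ} (hp : 0 < p) (b : ℕ) :
    cm (bd x M Q.D0) 1 M p b ≤ Real.exp (-(Q.D0 / 4)) := by
  classical
  have hx : ∀ n, 0 ≤ x n := fun n => law_nonneg hm.mx.1 n
  by_cases hb : b < p
  · exact (Finset.single_le_sum (f := fun b => cm (bd x M Q.D0) 1 M p b)
      (fun c _ => cm_bd_nonneg hx p c) (mem_range.2 hb)).trans (sum_bd hm hp)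
  · have : cm (bd x M Q.D0) 1 M p b = 0 := by
      unfold H599.cm
      refine Finset.sum_eq_zero fun i _ => ?_
      rw [if_neg]
      intro h
      exact hb (h ▸ Nat.mod_lt _ hp)
    rw [this]
    exact (Real.exp_pos _).le

theorem cm_core_le (hm : Mx Q N A0 d a M x L) (p b : ℕ) :
    cm (core x M Q.D0) 1 M p b ≤ 2 * cm x 1 M p b := by
  have hx : ∀ n, 0 ≤ x n := fun n => law_nonneg hm.mx.1 n
  obtain ⟨h1, h2, h3⟩ := be_bound hm
  have h4 := cm_split (Q := Q) (x := x) (M := M) (by linarith) p b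
  have h5 := cm_bd_nonneg (Q := Q) (M := M) hx p b
  have h6 : 0 ≤ cm (core x M Q.D0) 1 M p b :=
    H599.cm_nonneg (core_lawF hm).nonneg p b
  nlinarith

theorem cm_core_ge (hm : Mx Q N A0 d a M x L) {p : ℕ} (hp : 0 < p) (b : ℕ) :
    cm x 1 M p b - Real.exp (-(Q.D0 / 4)) ≤ cm (core x M Q.D0) 1 M p b := by
  obtain ⟨h1, h2, h3⟩ := be_bound hm
  have h4 := cm_split (Q := Q) (x := x) (M := M) (by linarith) p b
  have h5 := cm_bd_le hm hp b
  have h6 : 0 ≤ cm (core x M Q.D0) 1 M p b :=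
    H599.cm_nonneg (core_lawF hm).nonneg p b
  nlinarith

theorem cm_core_ne (hm : Mx Q N A0 d a M x L) {p b : ℕ}
    (h : cm (core x M Q.D0) 1 M p b ≠ 0) : cm x 1 M p b ≠ 0 := by
  intro h0
  have h1 := cm_core_le hm p b
  have h6 : 0 ≤ cm (core x M Q.D0) 1 M p b :=
    H599.cm_nonneg (core_lawF hm).nonneg p b
  rw [h0, mul_zero] at h1
  exact h (le_antisymm h1 h6)

/-- sup bound at the core -/
theorem sup_core (hm : Mx Q N A0 d a M x L) {p : ℕ} {Dp : ℝ}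
    (h : ∀ b, p * cm x 1 M p b ≤ Dp) (b : ℕ) : p * cm (core x M Q.D0) 1 M p b ≤ 2 * Dp := by
  have h1 := mul_le_mul_of_nonneg_left (cm_core_le hm p b) (Nat.cast_nonneg p : (0:ℝ) ≤ p)
  have h2 := h b
  linarith

/-- atoms at the core -/
theorem atom_core (hm : Mx Q N A0 d a M x L) {p : ℕ} (hp : 0 < p) {ξ : ℝ}
    (h : ∀ b < p, cm x 1 M p b ≠ 0 → ξ / (3 * p) ≤ cm x 1 M p b)
    (herr : Real.exp (-(Q.D0 / 4)) ≤ ξ / (12 * p)) (b : ℕ) :
    cm (core x M Q.D0) 1 M p b = 0 ∨ ξ / (4 * p) ≤ cm (core x M Q.D0) 1 M p b := by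
  have hp0 : (0:ℝ) < p := by exact_mod_cast hp
  by_cases h0 : cm (core x M Q.D0) 1 M p b = 0
  · exact Or.inl h0
  right
  have hb : b < p := by
    by_contra hb
    apply h0
    unfold H599.cm
    refine Finset.sum_eq_zero fun i _ => ?_
    rw [if_neg]
    intro h
    exact hb (h ▸ Nat.mod_lt _ hp)
  have h1 := h b hb (cm_core_ne hm h0)
  have h2 := cm_core_ge hm hp b
  have h3 : ξ / (4 * p) = ξ / (3 * p) - ξ / (12 * p) := by
    field_simp
    ring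
  rw [h3]
  linarith

/-- one-sided sums at the core, a general kernel -/
theorem row_core (hm : Mx Q N A0 d a M x L) {p : ℕ} (hp : 0 < p) (k : ℕ → ℝ) {B s : ℝ}
    (hk0 : ∀ c, 0 ≤ 1 + k c) (hkB : ∀ c, 1 + k c ≤ B)
    (h : s ≤ ∑ c ∈ range p, cm x 1 M p c * (1 + k c)) :
    s - B * Real.exp (-(Q.D0 / 4)) ≤
      ∑ c ∈ range p, cm (core x M Q.D0) 1 M p c * (1 + k c) := by
  have hx : ∀ n, 0 ≤ x n := fun n => law_nonneg hm.mx.1 n
  obtain ⟨h1, h2, h3⟩ := be_bound hm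
  have h4 : ∀ b, cm x 1 M p b = be x M Q.D0 * cm (core x M Q.D0) 1 M p b +
      cm (bd x M Q.D0) 1 M p b := fun b => cm_split (Q := Q) (x := x) (M := M) (by linarith) p b
  have hB : 0 ≤ B := (hk0 0).trans (hkB 0)
  have e1 : ∑ c ∈ range p, cm x 1 M p c * (1 + k c) =
      be x M Q.D0 * ∑ c ∈ range p, cm (core x M Q.D0) 1 M p c * (1 + k c) +
      ∑ c ∈ range p, cm (bd x M Q.D0) 1 M p c * (1 + k c) := by
    rw [mul_sum, ← sum_add_distrib]
    exact sum_congr rfl fun c _ => by rw [h4 c]; ring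
  have e2 : ∑ c ∈ range p, cm (bd x M Q.D0) 1 M p c * (1 + k c) ≤
      B * Real.exp (-(Q.D0 / 4)) := by
    calc ∑ c ∈ range p, cm (bd x M Q.D0) 1 M p c * (1 + k c)
        ≤ ∑ c ∈ range p, cm (bd x M Q.D0) 1 M p c * B :=
          sum_le_sum fun c _ => mul_le_mul_of_nonneg_left (hkB c)
            (cm_bd_nonneg hx p c)
      _ = (∑ c ∈ range p, cm (bd x M Q.D0) 1 M p c) * B := by rw [sum_mul]
      _ ≤ Real.exp (-(Q.D0 / 4)) * B := mul_le_mul_of_nonneg_right (sum_bd hm hp) hB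
      _ = B * Real.exp (-(Q.D0 / 4)) := mul_comm _ _
  have e3 : 0 ≤ ∑ c ∈ range p, cm (core x M Q.D0) 1 M p c * (1 + k c) :=
    sum_nonneg fun c _ => mul_nonneg (H599.cm_nonneg (core_lawF hm).nonneg p c) (hk0 c)
  have e4 : be x M Q.D0 * ∑ c ∈ range p, cm (core x M Q.D0) 1 M p c * (1 + k c) ≤
      ∑ c ∈ range p, cm (core x M Q.D0) 1 M p c * (1 + k c) := mul_le_of_le_one_left e3 h2
  rw [e1] at h
  linarith

/-- **the state at one prime for the core**: atoms and one-sided sums -/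
theorem core_at {R : ℕ} {g gr gc : ℝ} {h : ℤ[X]} {r : ℕ → ℤ} {Hh : ℕ → ℤ[X]} {lam : ℕ → ℕ}
    (hA : AuxData h lam r Hh R) (hk : 1 ≤ h.natDegree)
    (hom : Q.om = omF (pw' g) (pw' gr) (capP gc) Hh) (hm : Mx Q N A0 d a M x L)
    (h2 : 2 * Q.Mm ≤ M) (hD : 4 ≤ Q.D0) {OB : ℝ}
    (hOB : ∑ p ∈ Q.W, (pw' g p + pw' gr p * capP gc p) ≤ OB)
    (hE0 : 0 ≤ Err Q M L OB 2 (1 / M)) {p : ℕ} (hpW : p ∈ Q.W) (hp : p.Prime) (hRp : R < p)
    (hkp : 2 * h.natDegree ≤ p) (hg : 0 < g) (hg1 : g ≤ 1) (hgr0 : 0 < gr) (hgr1 : gr ≤ 1)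
    {Dp : ℝ}
    (hsup : ∀ b, p * cm x 1 M p b ≤ Dp)
    (hcap : 32 * (h.natDegree : ℝ) ^ 2 * Dp + 1 ≤ capP gc p) (hat : 8 * Dp ≤ pw' gr p * p)
    (herr : Err Q M L OB 2 (1 / M) / 2 + Real.exp (-(Q.D0 / 4)) ≤ (p : ℝ) ^ (-(1 + g)) / 8)
    (herr2 : 40 * h.natDegree * Real.exp (-(Q.D0 / 4)) ≤ (p : ℝ) ^ (-(2 : ℝ))) :
    (∀ b, p * cm (core x M Q.D0) 1 M p b ≤ 2 * Dp) ∧
    (∀ b, cm (core x M Q.D0) 1 M p b = 0 ∨
      pw' g p / (4 * p) ≤ cm (core x M Q.D0) 1 M p b) ∧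
    ∀ b < p, cm (core x M Q.D0) 1 M p b ≠ 0 →
      pw' gr p / 5 ≤
        ∑ c ∈ range p, cm (core x M Q.D0) 1 M p c * (1 + kN (Hh d) p ((b : ℤ) - c)) ∧
      pw' gr p / 5 ≤
        ∑ c ∈ range p, cm (core x M Q.D0) 1 M p c * (1 + kN (Hh d) p ((c : ℤ) - b)) := by
  have hd : 1 ≤ d := hm.mx.1.hd
  have hp1 : (1 : ℝ) ≤ p := by exact_mod_cast hp.one_lt.le
  have hpr : (0 : ℝ) < p := by linarith
  obtain ⟨a1, a2⟩ := prx_at hA hk hom hm h2 hD hOB hE0 hpW hp hRp hkp hg hgr0 hgr1 hsup hcap hat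
    herr
  obtain ⟨g1, g2⟩ := good_prime hA hk hp hd hRp hkp
  have hdegd : (Hh d).natDegree = h.natDegree := hA.natDegree_H hk d hd
  have hkk : (1 : ℝ) ≤ h.natDegree := by exact_mod_cast hk
  have he := Real.exp_pos (-(Q.D0 / 4))
  have hξp : pw' g p / p = (p : ℝ) ^ (-(1 + g)) := by
    unfold pw'
    rw [div_eq_iff hpr.ne']
    nth_rewrite 3 [← Real.rpow_one (p : ℝ)]
    rw [← Real.rpow_add hpr]
    congr 1
    ring
  refine ⟨sup_core hm hsup, ?_, ?_⟩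
  · refine atom_core hm hp.pos a1 ?_
    have e1 : (p : ℝ) ^ (-(2 : ℝ)) ≤ (p : ℝ) ^ (-(1 + g)) :=
      Real.rpow_le_rpow_of_exponent_le hp1 (by linarith)
    have e2 : pw' g p / (12 * p) = (p : ℝ) ^ (-(1 + g)) / 12 := by
      rw [← hξp]
      field_simp
    have e3 : Real.exp (-(Q.D0 / 4)) ≤ h.natDegree * Real.exp (-(Q.D0 / 4)) :=
      le_mul_of_one_le_left he.le hkk
    rw [e2]
    linarith
  · intro b hb hb0
    have hb1 := a2 b hb (cm_core_ne hm hb0)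
    have e1 := row_core hm hp.pos (fun c => kN (Hh d) p ((b : ℤ) - c)) (B := 2 * h.natDegree)
      (fun c => by linarith [neg_one_le_kN (Hh d) p ((b : ℤ) - c)])
      (fun c => by
        have := kN_le hp g1 g2 ((b : ℤ) - c)
        rw [hdegd] at this
        linarith) hb1.1
    have e2 := row_core hm hp.pos (fun c => kN (Hh d) p ((c : ℤ) - b)) (B := 2 * h.natDegree)
      (fun c => by linarith [neg_one_le_kN (Hh d) p ((c : ℤ) - b)])
      (fun c => by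
        have := kN_le hp g1 g2 ((c : ℤ) - b)
        rw [hdegd] at this
        linarith) hb1.2
    have e3 : (p : ℝ) ^ (-(2 : ℝ)) ≤ pw' gr p :=
      Real.rpow_le_rpow_of_exponent_le hp1 (by linarith)
    have e4 : 2 * h.natDegree * Real.exp (-(Q.D0 / 4)) ≤ pw' gr p / 20 := by linarith
    exact ⟨by linarith, by linarith⟩

end core

end Vale.Agent.P042.H383
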