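import Vale.Agent.P042.H383.MxF

set_option autoImplicit false

/-!
P042, row D.1: the error term of 945's master inequality in the power regime.
-/

namespace Vale.Agent.P042.H383

open Finset Polynomial
open Vale.Agent.P042.H945 (Par Ok Om sp rs Mx Err t1 Cs C1)
open Vale.Agent.P042.H599 (cm Law klu kl0 bwt FamOk PP)

/-- the weights of the subsets sum to one -/
theorem sum_bwt (t : ℕ → ℝ) (W : Finset ℕ) : ∑ R ∈ W.powerset, bwt t W R = 1 := by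
  classical
  unfold bwt
  rw [← Finset.prod_add t (fun p => 1 - t p) W]
  exact Finset.prod_eq_one fun p _ => by ring

section fam

variable {κ : Type} {f : H599.Fam κ} {Mm : ℕ}

/-- total weight of the MEI terms -/
theorem sum_fc_le (hf : FamOk f Mm) (g : κ → Finset ℕ → ℝ) (G : κ → ℝ)
    (hG0 : ∀ k ∈ f.F, 0 ≤ G k)
    (hG : ∀ k ∈ f.F, ∀ R ⊆ f.W k, ∏ p ∈ R, p ≤ f.B k → g k R ≤ G k) :
    ∑ i ∈ H599.fI f, H599.fc f i * g i.1 i.2 ≤ ∑ k ∈ f.F, f.ω k * f.K k * G k := by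
  rw [H599.sum_fI]
  refine sum_le_sum fun k hk => ?_
  have h0 : 0 ≤ f.ω k * f.K k := mul_nonneg (hf.hω k hk) (Nat.cast_nonneg _)
  refine mul_le_mul_of_nonneg_left ?_ h0
  calc ∑ R ∈ (f.W k).powerset, bwt (f.t k) (f.W k) R *
        (if ∏ p ∈ R, p ≤ f.B k then g k R else 0)
      ≤ ∑ R ∈ (f.W k).powerset, bwt (f.t k) (f.W k) R * G k := by
        refine sum_le_sum fun R hR => ?_
        have hRs := mem_powerset.1 hR
        refine mul_le_mul_of_nonneg_left ?_ (H599.bwt_nonneg (hf.ht0 k hk) (hf.ht1 k hk) hRs)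
        split_ifs with hB
        · exact hG k hk R hRs hB
        · exact hG0 k hk
    _ = G k := by rw [← sum_mul, sum_bwt, one_mul]

theorem C1_PP (hf : FamOk f Mm) (W : Finset ℕ) (c : ℕ → ℝ)
    (om : ℕ → ℕ → Finset ℕ → ℝ) (lam : ℕ → ℕ) (eta D0 E1 : ℝ) :
    C1 (PP f W c om lam eta D0 E1 Mm) ≤ ∑ p ∈ W, c p + ∑ k ∈ f.F, f.ω k * f.K k := by
  have h1 := H599.sum_PP f W c om lam eta D0 E1 Mm (fun _ => 1)
  have h2 := sum_fc_le hf (fun _ _ => 1) (fun _ => 1) (fun _ _ => zero_le_one)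
    (fun _ _ _ _ _ => le_rfl)
  simp only [mul_one] at h1 h2
  unfold C1
  rw [h1]
  linarith

theorem Cs_PP (hf : FamOk f Mm) (W : Finset ℕ) (c : ℕ → ℝ)
    (om : ℕ → ℕ → Finset ℕ → ℝ) (lam : ℕ → ℕ) (eta D0 E1 : ℝ) :
    Cs (PP f W c om lam eta D0 E1 Mm) ≤
      ∑ p ∈ W, c p * Real.log p + ∑ k ∈ f.F, f.ω k * f.K k * Real.log (f.B k) := by
  have h1 := H599.sum_PP f W c om lam eta D0 E1 Mm
    (fun i => Real.log ((PP f W c om lam eta D0 E1 Mm).m i))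
  have h2 := sum_fc_le hf (fun _ R => Real.log ((∏ p ∈ R, p : ℕ) : ℝ))
    (fun k => Real.log (f.B k)) (fun k _ => Real.log_natCast_nonneg _)
    (fun k hk R hR hB => by
      have h3 : 0 < ∏ p ∈ R, p := Finset.prod_pos fun p hp => hf.hW k hk p (hR hp)
      exact Real.log_le_log (by exact_mod_cast h3) (by exact_mod_cast hB))
  unfold Cs
  rw [h1]
  exact add_le_add_right h2 _

/-- crude bounds: everything is at most `X` -/
theorem C1_PP_le (hf : FamOk f Mm) (W : Finset ℕ) (c : ℕ → ℝ)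
    (om : ℕ → ℕ → Finset ℕ → ℝ) (lam : ℕ → ℕ) (eta D0 E1 : ℝ) {X Z : ℝ}
    (hW : (W.card : ℝ) ≤ X) (hc : ∀ p ∈ W, c p ≤ 1) (hK : ∀ k ∈ f.F, (f.K k : ℝ) ≤ Z)
    (hZ : 0 ≤ Z) : C1 (PP f W c om lam eta D0 E1 Mm) ≤ X + Z := by
  refine (C1_PP hf W c om lam eta D0 E1).trans (add_le_add ?_ ?_)
  · calc ∑ p ∈ W, c p ≤ ∑ _p ∈ W, (1 : ℝ) := sum_le_sum hc
      _ = W.card := by simp
      _ ≤ X := hW
  · calc ∑ k ∈ f.F, f.ω k * f.K k ≤ ∑ k ∈ f.F, f.ω k * Z :=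
          sum_le_sum fun k hk => mul_le_mul_of_nonneg_left (hK k hk) (hf.hω k hk)
      _ = (∑ k ∈ f.F, f.ω k) * Z := by rw [sum_mul]
      _ ≤ 1 / 4 * Z := mul_le_mul_of_nonneg_right hf.hω1 hZ
      _ ≤ Z := by linarith

theorem Cs_PP_le (hf : FamOk f Mm) (W : Finset ℕ) (c : ℕ → ℝ)
    (om : ℕ → ℕ → Finset ℕ → ℝ) (lam : ℕ → ℕ) (eta D0 E1 : ℝ) {X Z Y : ℝ}
    (hW : (W.card : ℝ) ≤ X) (hc : ∀ p ∈ W, c p ≤ 1) (hK : ∀ k ∈ f.F, (f.K k : ℝ) ≤ Z)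
    (hZ : 0 ≤ Z) (hY : 0 ≤ Y) (hWY : ∀ p ∈ W, Real.log p ≤ Y)
    (hBY : ∀ k ∈ f.F, Real.log (f.B k) ≤ Y) :
    Cs (PP f W c om lam eta D0 E1 Mm) ≤ (X + Z) * Y := by
  refine (Cs_PP hf W c om lam eta D0 E1).trans ?_
  rw [add_mul]
  refine add_le_add ?_ ?_
  · calc ∑ p ∈ W, c p * Real.log p ≤ ∑ _p ∈ W, 1 * Y :=
          sum_le_sum fun p hp => by
            have h1 := Real.log_natCast_nonneg p
            exact (mul_le_mul_of_nonneg_right (hc p hp) h1).trans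
              (mul_le_mul_of_nonneg_left (hWY p hp) zero_le_one)
      _ = W.card * Y := by simp
      _ ≤ X * Y := mul_le_mul_of_nonneg_right hW hY
  · calc ∑ k ∈ f.F, f.ω k * f.K k * Real.log (f.B k) ≤ ∑ k ∈ f.F, f.ω k * (Z * Y) :=
          sum_le_sum fun k hk => by
            rw [mul_assoc]
            refine mul_le_mul_of_nonneg_left ?_ (hf.hω k hk)
            exact mul_le_mul (hK k hk) (hBY k hk) (Real.log_natCast_nonneg _) hZ
      _ = (∑ k ∈ f.F, f.ω k) * (Z * Y) := by rw [sum_mul]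
      _ ≤ 1 / 4 * (Z * Y) := mul_le_mul_of_nonneg_right hf.hω1 (mul_nonneg hZ hY)
      _ ≤ Z * Y := by nlinarith [mul_nonneg hZ hY]

end fam

/-- **crude bound of the error term** -/
theorem Err_le_of {ι : Type} {Q : Par ι} {M : ℕ} {L OB K r X : ℝ} (hX : 1 ≤ X) (h1 : Cs Q ≤ X)
    (h2 : L ≤ X) (h3 : Q.E1 ≤ X) (h4 : Real.log M ≤ X) (h5 : OB ≤ X) (h60 : 0 ≤ C1 Q)
    (h6 : C1 Q ≤ X) (h7 : Real.log K ≤ X) (h8 : Q.D0 ≤ X) :
    Err Q M L OB K r ≤ r + 40 * X ^ 2 * Real.exp (-(Q.D0 / 4)) := by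
  have hM := Real.log_natCast_nonneg M
  have he := Real.exp_pos (-(Q.D0 / 4))
  have e1 : C1 Q * Real.log K ≤ X * X :=
    (mul_le_mul_of_nonneg_left h7 h60).trans (mul_le_mul_of_nonneg_right h6 (by linarith))
  have e2 : C1 Q * (1 + Q.D0 / 4 + Real.log M) ≤ X * (3 * X) :=
    (mul_le_mul_of_nonneg_left (by linarith : 1 + Q.D0 / 4 + Real.log M ≤ 3 * X) h60).trans
      (mul_le_mul_of_nonneg_right h6 (by linarith))
  have e3 : X ≤ X ^ 2 := by nlinarith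
  have e4 : Cs Q + 2 * L + 2 * Q.E1 + (2 * Real.log M + OB + 2 * C1 Q * Real.log K +
      2 * C1 Q * (1 + Q.D0 / 4 + Real.log M)) ≤ 20 * X ^ 2 := by nlinarith
  unfold Err t1
  have e5 := mul_le_mul_of_nonneg_left e4 (by linarith : 0 ≤ 2 * Real.exp (-(Q.D0 / 4)))
  nlinarith

/-- the error term is nonnegative -/
theorem Err_nn {ι : Type} {Q : Par ι} (hQ : Ok Q) {M : ℕ} {L OB K r : ℝ} (hL : 0 ≤ L)
    (hOB : 0 ≤ OB) (hK : 1 ≤ K) (hr : 0 ≤ r) : 0 ≤ Err Q M L OB K r := by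
  have h1 := H945.t1_nonneg hQ hL
  have h2 := H945.C1_nonneg hQ
  have h3 := Real.log_natCast_nonneg M
  have h4 := Real.log_nonneg hK
  have h5 := hQ.D00
  unfold Err
  positivity

/-- **numerics of the error term, power regime** -/
theorem err_num (A : ℝ) {c : ℝ} (hc : 0 < c) : ∃ P0 : ℝ, ∀ P : ℝ, P0 ≤ P → ∀ D0 : ℝ,
    c * P ≤ D0 → 40 * (P ^ A) ^ 2 * Real.exp (-(D0 / 4)) ≤ Real.exp (-(D0 / 5)) := by
  have h1 : Filter.Tendsto (fun P : ℝ => P ^ (2 * A) * Real.exp (-(c / 20) * P)) Filter.atTop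
      (nhds 0) := tendsto_rpow_mul_exp_neg_mul_atTop_nhds_zero (2 * A) (c / 20) (by positivity)
  have h2 : ∀ᶠ P : ℝ in Filter.atTop, P ^ (2 * A) * Real.exp (-(c / 20) * P) < 1 / 40 :=
    h1.eventually_lt_const (by norm_num)
  obtain ⟨P1, hP1⟩ := Filter.eventually_atTop.1 h2
  refine ⟨max P1 1, fun P hP D0 hD => ?_⟩
  have h3 := hP1 P ((le_max_left _ _).trans hP)
  have hP0 : 0 < P := by linarith [(le_max_right P1 1).trans hP]
  have h4 : (P ^ A) ^ 2 = P ^ (2 * A) := by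
    rw [← Real.rpow_natCast, ← Real.rpow_mul hP0.le]
    congr 1
    push_cast
    ring
  have h5 : Real.exp (-(D0 / 4)) = Real.exp (-(D0 / 5)) * Real.exp (-(D0 / 20)) := by
    rw [← Real.exp_add]; congr 1; ring
  have h6 : Real.exp (-(D0 / 20)) ≤ Real.exp (-(c / 20) * P) := Real.exp_le_exp.2 (by linarith)
  rw [h4, h5]
  have h7 := Real.exp_pos (-(D0 / 5))
  have h8 : 0 < P ^ (2 * A) := Real.rpow_pos_of_pos hP0 _
  calc 40 * P ^ (2 * A) * (Real.exp (-(D0 / 5)) * Real.exp (-(D0 / 20)))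
      = Real.exp (-(D0 / 5)) * (40 * (P ^ (2 * A) * Real.exp (-(D0 / 20)))) := by ring
    _ ≤ Real.exp (-(D0 / 5)) * (40 * (P ^ (2 * A) * Real.exp (-(c / 20) * P))) := by
        refine mul_le_mul_of_nonneg_left ?_ h7.le
        refine mul_le_mul_of_nonneg_left ?_ (by norm_num)
        exact mul_le_mul_of_nonneg_left h6 h8.le
    _ ≤ Real.exp (-(D0 / 5)) * 1 := by
        refine mul_le_mul_of_nonneg_left ?_ h7.le
        linarith
    _ = Real.exp (-(D0 / 5)) := mul_one _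

/-- **the error term of the power parameters**: `Err ≤ r + exp (-D0/5)`.
`P^A` bounds the number of primes, the numbers `K` of the families, and the logarithms. -/
theorem Err_PP {c : ℝ} (hc : 0 < c) {A : ℝ} (hA : 1 ≤ A) : ∃ P0 : ℝ, ∀ P : ℝ, P0 ≤ P →
    ∀ (κ : Type) (f : H599.Fam κ) (Mm : ℕ), FamOk f Mm → ∀ (W : Finset ℕ) (cw : ℕ → ℝ)
    (om : ℕ → ℕ → Finset ℕ → ℝ) (lam : ℕ → ℕ) (eta D0 E1 : ℝ),
    (W.card : ℝ) ≤ P ^ A → (∀ p ∈ W, cw p ≤ 1) → (∀ k ∈ f.F, (f.K k : ℝ) ≤ P ^ A) →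
    (∀ p ∈ W, Real.log p ≤ P) → (∀ k ∈ f.F, Real.log (f.B k) ≤ P) →
    c * P ≤ D0 → D0 ≤ P → E1 ≤ P →
    ∀ (M : ℕ) (L OB K r : ℝ), Ok (PP f W cw om lam eta D0 E1 Mm) → L ≤ P → Real.log M ≤ P →
    OB ≤ P ^ (2 * A) → Real.log K ≤ P →
    Err (PP f W cw om lam eta D0 E1 Mm) M L OB K r ≤ r + Real.exp (-(D0 / 5)) := by
  obtain ⟨P1, hP1⟩ := err_num (2 * A + 1) hc
  refine ⟨max P1 2, ?_⟩
  intro P hP κ f Mm hf W cw om lam eta D0 E1 hW hcw hK hlW hlB hD hD1 hE1 M L OB K r hok hL hM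
    hOB hlK
  have hP2 : 2 ≤ P := (le_max_right _ _).trans hP
  have hP0 : 0 < P := by linarith
  have hnum := hP1 P ((le_max_left _ _).trans hP) D0 hD
  have hPA : P ≤ P ^ A := by
    calc P = P ^ (1:ℝ) := (Real.rpow_one P).symm
      _ ≤ P ^ A := Real.rpow_le_rpow_of_exponent_le (by linarith) hA
  have e1 : P ^ (2 * A + 1) = P ^ A * P ^ A * P := by
    rw [Real.rpow_add hP0, Real.rpow_one, two_mul, Real.rpow_add hP0]
  have e0 : P ^ (2 * A) = P ^ A * P ^ A := by rw [two_mul, Real.rpow_add hP0]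
  have hPAp : 0 < P ^ A := Real.rpow_pos_of_pos hP0 _
  obtain ⟨T, hT⟩ : ∃ T, T = P ^ A := ⟨_, rfl⟩
  rw [← hT] at e1 e0 hPA hPAp
  have hT2 : 2 ≤ T := by linarith
  have e2 : P ≤ P ^ (2 * A + 1) := by
    rw [e1]; nlinarith [mul_pos hPAp hPAp]
  have e3 : T + T ≤ P ^ (2 * A + 1) := by
    rw [e1]
    have : T * 2 ≤ T * T := mul_le_mul_of_nonneg_left hT2 hPAp.le
    nlinarith [mul_pos hPAp hPAp]
  have e4 : (T + T) * P ≤ P ^ (2 * A + 1) := by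
    rw [e1]
    have : T + T ≤ T * T := by nlinarith
    exact mul_le_mul_of_nonneg_right this hP0.le
  have e5 : P ^ (2 * A) ≤ P ^ (2 * A + 1) := by
    rw [e1, e0]; nlinarith [mul_pos hPAp hPAp]
  have hCs := Cs_PP_le hf W cw om lam eta D0 E1 (Mm := Mm) hW hcw hK (by rw [← hT]; linarith)
    hP0.le hlW hlB
  have hC1 := C1_PP_le hf W cw om lam eta D0 E1 (Mm := Mm) hW hcw hK (by rw [← hT]; linarith)
  rw [← hT] at hCs hC1
  have h := Err_le_of (Q := PP f W cw om lam eta D0 E1 Mm) (M := M) (L := L) (OB := OB) (K := K)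
    (r := r) (X := P ^ (2 * A + 1)) (by linarith) (hCs.trans e4) (hL.trans e2) (hE1.trans e2)
    (hM.trans e2) (hOB.trans e5) (H945.C1_nonneg hok) (hC1.trans e3) (hlK.trans e2)
    (hD1.trans e2)
  exact h.trans (add_le_add_right hnum _)

end Vale.Agent.P042.H383
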