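import Vale.Agent.P042.H383.ErrP

set_option autoImplicit false

/-!
P042, row D.2: all one-prime facts at the maximiser of 945's functional, power regime, with numbers.
-/

namespace Vale.Agent.P042.H383

open Finset Polynomial Vale.Agent.P042.H74 Vale.Agent.P042.SS Vale.Agent.P042.H954
open Vale.Agent.P042.H945 (Par Ok Om sp rs Mx Err ms)
open Vale.Agent.P042.H599 (cm Law klu kl0)

/-! ### Weil at large primes -/

theorem gam_prime (k R : ℕ) (hk : 1 ≤ k) (hR : 1 ≤ R) :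
    ∃ p0 : ℕ, ∀ f : ℤ[X], f.natDegree = k → 0 < f.leadingCoeff →
      (∀ g : ℤ, (∀ j : ℕ, 1 ≤ j → g ∣ f.coeff j) → g ∣ (R : ℤ)) →
      ∀ p : ℕ, p.Prime → p0 < p → ∀ a : ℤ, IsCoprime a (p : ℤ) →
        ‖Gam f a p‖ ≤ k / √(p : ℝ) := by
  obtain ⟨E, hE, hcomp⟩ := complete_sums k hk
  obtain ⟨K, p0, kap, hK1, hkap0, hkap1, hpw, hone, htwo, hsum⟩ := hcomp R hR
  refine ⟨p0, fun f hfk hfl hfR p hp hp0 a ha => ?_⟩
  have h1 := hsum f hfk hfl hfR p a hp.one_lt.le ha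
  have hq0 : (0 : ℝ) < p := by exact_mod_cast hp.pos
  rw [Nat.Prime.primeFactors hp, Finset.prod_singleton, Nat.Prime.factorization_self hp] at h1
  unfold Gam
  rw [norm_div, Complex.norm_natCast, div_le_iff₀ hq0]
  exact h1.trans (mul_le_mul_of_nonneg_right (hone p hp hp0) hq0.le)

/-! ### numbers at one prime -/

/-- numbers at one prime -/
structure NumK (k : ℕ) (gr gc a3 : ℝ) (p : ℕ) : Prop where
  p16 : 16 * (k : ℝ) ^ 2 ≤ p
  cap : 32 * (k : ℝ) ^ 2 * (p : ℝ) ^ a3 + 1 ≤ capP gc p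
  at' : 8 * (p : ℝ) ^ a3 ≤ pw' gr p * p
  small : 1024 * k * ((p : ℝ) ^ a3) ^ 3 * (a3 * Real.log p) ≤ pw' gr p ^ 2 * √(p : ℝ)

theorem numK_ev (k : ℕ) {gr gc a3 : ℝ} (h0 : 0 < a3) (h1 : a3 < gc)
    (h3 : 4 * a3 + 2 * gr < 1 / 2) :
    ∃ K0 : ℕ, ∀ p : ℕ, K0 ≤ p → NumK k gr gc a3 p := by
  have t1 : ∀ᶠ x : ℝ in Filter.atTop, 32 * (k : ℝ) ^ 2 + 1 ≤ x ^ (gc - a3) :=
    (tendsto_rpow_atTop (by linarith)).eventually_ge_atTop _
  have t2 : ∀ᶠ x : ℝ in Filter.atTop, 8 ≤ x ^ (1 - gr - a3) :=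
    (tendsto_rpow_atTop (by linarith)).eventually_ge_atTop _
  have t3 : ∀ᶠ x : ℝ in Filter.atTop, 1024 * (k : ℝ) ≤ x ^ (1 / 2 - 2 * gr - 4 * a3) :=
    (tendsto_rpow_atTop (by linarith)).eventually_ge_atTop _
  obtain ⟨X, hX⟩ := Filter.eventually_atTop.1 (t1.and (t2.and t3))
  refine ⟨max ⌈X⌉₊ (16 * k ^ 2 + 1), fun p hp => ?_⟩
  have hpX : X ≤ p := (Nat.le_ceil X).trans (by exact_mod_cast (le_max_left _ _).trans hp)
  have hp16 : 16 * k ^ 2 + 1 ≤ p := (le_max_right _ _).trans hp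
  obtain ⟨s1, s2, s3⟩ := hX p hpX
  have hp1 : (1 : ℝ) ≤ p := by exact_mod_cast (by omega : 1 ≤ p)
  have hp0 : (0 : ℝ) < p := by linarith
  have ha3 : 1 ≤ (p : ℝ) ^ a3 := Real.one_le_rpow hp1 h0.le
  have hlog : a3 * Real.log p ≤ (p : ℝ) ^ a3 := by
    have := Real.log_le_rpow_div hp0.le h0
    rw [le_div_iff₀ h0] at this
    linarith
  refine ⟨by exact_mod_cast (by omega : 16 * k ^ 2 ≤ p), ?_, ?_, ?_⟩
  · unfold capP
    have e1 : (p : ℝ) ^ gc = (p : ℝ) ^ (gc - a3) * (p : ℝ) ^ a3 := by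
      rw [← Real.rpow_add hp0]; congr 1; ring
    rw [e1]
    calc 32 * (k : ℝ) ^ 2 * (p : ℝ) ^ a3 + 1 ≤ (32 * (k : ℝ) ^ 2 + 1) * (p : ℝ) ^ a3 := by
          rw [add_mul, one_mul]; linarith
      _ ≤ _ := mul_le_mul_of_nonneg_right s1 (by linarith)
  · unfold pw'
    have e1 : (p : ℝ) ^ (-gr) * p = (p : ℝ) ^ (1 - gr - a3) * (p : ℝ) ^ a3 := by
      rw [← Real.rpow_add hp0]
      nth_rewrite 2 [← Real.rpow_one (p : ℝ)]
      rw [← Real.rpow_add hp0]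
      congr 1
      ring
    rw [e1]
    exact mul_le_mul_of_nonneg_right s2 (by linarith)
  · unfold pw'
    have e1 : ((p : ℝ) ^ (-gr)) ^ 2 * √(p : ℝ) =
        (p : ℝ) ^ (1 / 2 - 2 * gr - 4 * a3) * ((p : ℝ) ^ a3) ^ 4 := by
      rw [Real.sqrt_eq_rpow, ← Real.rpow_natCast, ← Real.rpow_natCast ((p : ℝ) ^ a3),
        ← Real.rpow_mul hp0.le, ← Real.rpow_mul hp0.le, ← Real.rpow_add hp0, ← Real.rpow_add hp0]
      congr 1
      push_cast
      ring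
    rw [e1]
    have h4 : 0 ≤ ((p : ℝ) ^ a3) ^ 3 := by positivity
    have h5 : 0 ≤ ((p : ℝ) ^ a3) ^ 4 := by positivity
    calc 1024 * (k : ℝ) * ((p : ℝ) ^ a3) ^ 3 * (a3 * Real.log p)
        ≤ 1024 * (k : ℝ) * ((p : ℝ) ^ a3) ^ 3 * (p : ℝ) ^ a3 :=
          mul_le_mul_of_nonneg_left hlog (by positivity)
      _ = 1024 * (k : ℝ) * ((p : ℝ) ^ a3) ^ 4 := by ring
      _ ≤ _ := mul_le_mul_of_nonneg_right s3 h5

/-- the sup bound is a small power of the prime -/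
theorem al_num (k : ℕ) {eta g gr gc a3 : ℝ} (he : 0 ≤ eta) (hg : 0 < g) (hgr : g + gc ≤ gr)
    (ha : 0 < a3) (h4 : 4 * eta * k ≤ a3) :
    ∃ K0 : ℕ, ∀ p : ℕ, K0 ≤ p → ∀ lp : ℕ, 1 ≤ lp → lp ≤ p ^ k → ∀ t2 : ℝ, t2 ≤ 1 →
      Real.exp (2 * (eta * Real.log lp + (pw' g p + pw' gr p * capP gc p) + t2)) ≤
        (p : ℝ) ^ a3 := by
  refine ⟨⌈Real.exp (12 / a3)⌉₊ + 1, fun p hp lp hlp1 hlp t2 ht2 => ?_⟩
  have hp1' : 1 ≤ p := by omega
  have hp1 : (1 : ℝ) ≤ p := by exact_mod_cast hp1'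
  have hp0 : (0 : ℝ) < p := by linarith
  have h1 : 12 / a3 ≤ Real.log p := by
    rw [Real.le_log_iff_exp_le hp0]
    refine (Nat.le_ceil _).trans ?_
    exact_mod_cast (by omega : ⌈Real.exp (12 / a3)⌉₊ ≤ p)
  rw [div_le_iff₀ ha] at h1
  have h2 : Real.log lp ≤ k * Real.log p := by
    rw [← Real.log_pow]
    exact Real.log_le_log (by exact_mod_cast hlp1) (by exact_mod_cast hlp)
  have h3 := qw_le hgr 0 hp1'
  unfold qw at h3
  have h5 : pw' g p + pw' gr p * capP gc p ≤ 2 := by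
    have e1 : pw' g p ≤ 1 := Real.rpow_le_one_of_one_le_of_nonpos hp1 (by linarith)
    have e2 : pw' gr p * capP gc p ≤ 1 := by
      unfold pw' capP
      rw [← Real.rpow_add hp0]
      exact Real.rpow_le_one_of_one_le_of_nonpos hp1 (by linarith)
    linarith
  have h6 : eta * Real.log lp ≤ eta * (k * Real.log p) := mul_le_mul_of_nonneg_left h2 he
  have h7 : 0 ≤ Real.log p := Real.log_nonneg hp1
  have h8 : 4 * eta * k * Real.log p ≤ a3 * Real.log p := mul_le_mul_of_nonneg_right h4 h7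
  rw [Real.rpow_def_of_pos hp0]
  refine Real.exp_le_exp.2 ?_
  nlinarith

/-- `klu` is at most the logarithm of the sup bound -/
theorem klu_le_log {x : ℕ → ℝ} {M p : ℕ} (h : Law x 1 M) (hp : 0 < p) {D : ℝ}
    (hD : ∀ b, p * cm x 1 M p b ≤ D) : klu x 1 M p ≤ Real.log D := by
  have hp0 : (0:ℝ) < p := by exact_mod_cast hp
  have h1 : klu x 1 M p = ∑ a ∈ range p, cm x 1 M p a * Real.log (p * cm x 1 M p a) := rfl
  rw [h1, ← one_mul (Real.log D), ← H599.sum_cm h.sum hp, sum_mul]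
  refine sum_le_sum fun a _ => ?_
  have h2 := H599.cm_nonneg h.nonneg p a
  rcases h2.eq_or_lt with h3 | h3
  · rw [← h3]; simp
  · exact mul_le_mul_of_nonneg_left (Real.log_le_log (by positivity) (hD a)) h2

/-! ### the bad mass -/

theorem badm_eq {x : ℕ → ℝ} {M : ℕ} {D0 : ℝ} :
    badm x M D0 = ms x M (fun n => ¬ (M * x n ≤ Real.exp (D0 / 2))) := by
  classical
  unfold badm ms H945.SM
  refine sum_congr rfl fun i _ => ?_
  by_cases h : M * x (1 + i) ≤ Real.exp (D0 / 2)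
  · rw [if_pos h]
    exact (if_neg (not_not.2 h)).symm
  · rw [if_neg h]
    exact (if_pos h).symm

theorem badm_le {ι : Type} {Q : Par ι} {N d M : ℕ} {A0 : Finset ℤ} {a : ℤ} {x : ℕ → ℝ} {L : ℝ}
    (hm : Mx Q N A0 d a M x L) : badm x M Q.D0 ≤ Real.exp (-(Q.D0 / 4)) := by
  have h1 := H945.cut_small hm.ok hm.mx hm.base hm.hD0
  have h2 : badm x M Q.D0 = ms x M (fun n => Real.exp (Q.D0 / 2) < M * x n) := by
    rw [badm_eq]
    simp only [not_le]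
  rw [h2]
  exact h1

/-! ### the state at one prime -/

/-- the facts at one prime: sup bound, atoms, row and column sums -/
structure PrX (f : ℤ[X]) (M : ℕ) (x : ℕ → ℝ) (g gr a3 : ℝ) (p : ℕ) : Prop where
  sup : ∀ b, p * cm x 1 M p b ≤ (p : ℝ) ^ a3
  atom : ∀ b < p, cm x 1 M p b ≠ 0 → pw' g p / (3 * p) ≤ cm x 1 M p b
  row : ∀ b < p, cm x 1 M p b ≠ 0 →
    pw' gr p / 4 ≤ ∑ c ∈ range p, cm x 1 M p c * (1 + kN f p ((b : ℤ) - c))
  col : ∀ b < p, cm x 1 M p b ≠ 0 →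
    pw' gr p / 4 ≤ ∑ c ∈ range p, cm x 1 M p c * (1 + kN f p ((c : ℤ) - b))

/-- **all one-prime facts at the maximiser** -/
theorem prx {k R : ℕ} (hk : 1 ≤ k) (hR : 1 ≤ R) {g gr gc a3 : ℝ} (hg : 0 < g)
    (hgr0 : 0 < gr) (h0 : 0 < a3) (h1 : a3 < gc)
    (h3 : 4 * a3 + 2 * gr < 1 / 2) :
    ∃ K0 : ℕ, ∀ (ι : Type) (Q : Par ι) (h : ℤ[X]) (r : ℕ → ℤ) (Hh : ℕ → ℤ[X]) (lam : ℕ → ℕ),
      AuxData h lam r Hh R → h.natDegree = k → 0 < h.leadingCoeff →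
      Q.om = omF (pw' g) (pw' gr) (capP gc) Hh →
      ∀ (N d M : ℕ) (A0 : Finset ℤ) (a : ℤ) (x : ℕ → ℝ) (L OB : ℝ), Mx Q N A0 d a M x L →
      2 * Q.Mm ≤ M → 4 ≤ Q.D0 → ∑ p ∈ Q.W, (pw' g p + pw' gr p * capP gc p) ≤ OB →
      0 ≤ Err Q M L OB 2 (1 / M) →
      ∀ p ∈ Q.W, p.Prime → K0 ≤ p → (∀ b, p * cm x 1 M p b ≤ (p : ℝ) ^ a3) →
      Err Q M L OB 2 (1 / M) / 2 + Real.exp (-(Q.D0 / 4)) ≤ (p : ℝ) ^ (-(1 + g)) / 8 →
      PrX (Hh d) M x g gr a3 p := by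
  classical
  obtain ⟨p0, hp0⟩ := gam_prime k R hk hR
  obtain ⟨K1, hK1⟩ := numK_ev k (gr := gr) (gc := gc) h0 h1 h3
  refine ⟨max (max K1 (p0 + 1)) (max (R + 1) (2 * k + 2)), ?_⟩
  intro ι Q h r Hh lam hA hdeg hlead hom N d M A0 a x L OB hm h2 hD hOB hE0 p hpW hp hK hsup herr
  have hK1' : K1 ≤ p := ((le_max_left _ _).trans (le_max_left _ _)).trans hK
  have hp0' : p0 < p := ((le_max_right _ _).trans (le_max_left _ _)).trans hK
  have hRp : R < p := ((le_max_left _ _).trans (le_max_right _ _)).trans hK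
  have hkp : 2 * k + 2 ≤ p := ((le_max_right _ _).trans (le_max_right _ _)).trans hK
  have hn := hK1 p hK1'
  have hd : 1 ≤ d := hm.mx.1.hd
  have hlaw := hm.mx.1.law
  have hp1 : (1 : ℝ) ≤ p := by exact_mod_cast hp.one_lt.le
  have hpr : (0 : ℝ) < p := by linarith
  have hp2 : (2 : ℝ) ≤ p := by exact_mod_cast hp.two_le
  have hdegd : (Hh d).natDegree = k := by rw [hA.natDegree_H (by omega) d hd, hdeg]
  obtain ⟨g1, g2⟩ := good_prime hA (by omega) hp hd hRp (by omega)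
  have hξ : ∀ q ∈ Q.W, 0 ≤ pw' g q := fun q _ => pw'_nonneg g q
  have hrr : ∀ q ∈ Q.W, 0 ≤ pw' gr q := fun q _ => pw'_nonneg gr q
  have hbad := badm_le hm
  have herr' : Err Q M L OB 2 (1 / M) / 2 + badm x M Q.D0 ≤ (p : ℝ) ^ (-(1 + g)) / 8 := by
    linarith
  have hrr1 : pw' gr p ≤ 1 := Real.rpow_le_one_of_one_le_of_nonpos hp1 (by linarith)
  have hg1' : pw' g p ≤ 1 := Real.rpow_le_one_of_one_le_of_nonpos hp1 (by linarith)
  have hξp : pw' g p / p = (p : ℝ) ^ (-(1 + g)) := by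
    unfold pw'
    rw [div_eq_iff hpr.ne']
    nth_rewrite 3 [← Real.rpow_one (p : ℝ)]
    rw [← Real.rpow_add hpr]
    congr 1
    ring
  have hle : (p : ℝ) ^ (-(1 + g)) ≤ pw' gr p :=
    Real.rpow_le_rpow_of_exponent_le hp1 (by linarith)
  have hpow : 0 < (p : ℝ) ^ (-(1 + g)) := Real.rpow_pos_of_pos hpr _
  have ha3 : 1 ≤ (p : ℝ) ^ a3 := Real.one_le_rpow hp1 h0.le
  -- the missing classes
  have hNS : NS (Hh d) {p} := fun q hq => by
    rw [mem_singleton] at hq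
    rw [hq]
    exact ⟨hp, by linarith⟩
  have hs : 0 < √(p : ℝ) := Real.sqrt_pos.2 hpr
  have hρ1 : 4 * (k : ℝ) / √(p : ℝ) ≤ 1 := by
    rw [div_le_one hs]
    refine Real.le_sqrt_of_sq_le ?_
    have := hn.p16
    linarith
  have hρ2 : (4 * (k : ℝ) / √(p : ℝ)) ^ 2 * p = 16 * (k : ℝ) ^ 2 := by
    rw [div_pow, Real.sq_sqrt hpr.le]
    field_simp
    ring
  have hGN : ∀ b : ℤ, IsCoprime b (p : ℤ) → ‖GamN (Hh d) {p} b p‖ ≤ 4 * k / √(p : ℝ) := by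
    intro b hb
    have e1 := hp0 (Hh d) hdegd (hA.lead_pos (by omega) hlead d hd) (hA.hgcd d hd) p hp hp0' b hb
    have h4 := (GamN_le hNS (mem_singleton_self p) (by omega) (by omega) g1 (a := b)
      (by rw [hdegd]; exact e1)).1
    rwa [hdegd] at h4
  have hmiss : (miss (Hh d) p (supp x 1 M p) : ℝ) + 1 ≤ capP gc p := by
    have e1 := miss_le hNS (mem_singleton_self p) (by positivity : 0 ≤ 4 * (k : ℝ) / √(p : ℝ))
      hGN hlaw hsup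
    have e2 : 2 * (4 * (k : ℝ) / √(p : ℝ)) ^ 2 * p * (p : ℝ) ^ a3 =
        32 * (k : ℝ) ^ 2 * (p : ℝ) ^ a3 := by
      rw [mul_assoc 2, hρ2]; ring
    have e3 := hn.cap
    linarith
  have hat : ∀ b, cm x 1 M p b ≤ pw' gr p / 8 := by
    intro b
    have e1 := hsup b
    have e2 := hn.at'
    rw [le_div_iff₀ (by norm_num)]
    have e3 : (p : ℝ) * (cm x 1 M p b * 8) ≤ p * pw' gr p := by nlinarith
    exact le_of_mul_le_mul_left e3 hpr
  have hrows : ∀ b < p, cm x 1 M p b ≠ 0 →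
      pw' gr p / 4 ≤ ∑ c ∈ range p, cm x 1 M p c * (1 + kN (Hh d) p ((b : ℤ) - c)) ∧
      pw' gr p / 4 ≤ ∑ c ∈ range p, cm x 1 M p c * (1 + kN (Hh d) p ((c : ℤ) - b)) :=
    fun b hb hb0 => rows_F hom hξ hrr hm h2 hD hOB hpW (by linarith) (by linarith)
      (by linarith) hmiss hat hb hb0
  refine ⟨hsup, fun b hb hb0 => ?_, fun b hb hb0 => (hrows b hb hb0).1,
    fun b hb hb0 => (hrows b hb hb0).2⟩
  refine atoms_F hom hξ hrr hm h2 hD hOB hpW ?_ ?_ hb hb0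
  · rw [hξp]
    have : (p : ℝ) ^ (-(1 + g)) ≤ 1 := hle.trans hrr1
    linarith
  · rw [hξp]
    linarith

end Vale.Agent.P042.H383
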