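import Vale.Agent.P042.H383.RewS
import Vale.Agent.P042.H383.OmP

set_option autoImplicit false

/-!
P042, row D.2: the rewards at the maximiser of 945's functional, for any parameters whose support
term is `omF` (in particular 599's `PP`).
-/

namespace Vale.Agent.P042.H383

open Finset Polynomial Vale.Agent.P042.H74 Vale.Agent.P042.SS Vale.Agent.P042.H954
open Vale.Agent.P042.H945 (Par Ok Om sp rs Mx Comp Omc SC KC Err kl2 klc SM AC)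
open Vale.Agent.P042.H599 (cm Law klu kl0)

/-- bad mass at the maximiser -/
noncomputable def badm (x : ℕ → ℝ) (M : ℕ) (D0 : ℝ) : ℝ :=
  ∑ i ∈ range M, (if M * x (1 + i) ≤ Real.exp (D0 / 2) then 0 else x (1 + i))

section gen

variable {ι : Type} {Q : Par ι} {ξ rr cap : ℕ → ℝ} {Hh : ℕ → ℤ[X]}

theorem Om_le_F (hom : Q.om = omF ξ rr cap Hh) (hξ : ∀ p ∈ Q.W, 0 ≤ ξ p)
    (hrr : ∀ p ∈ Q.W, 0 ≤ rr p) (d : ℕ) (S : Finset ℕ) :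
    Om Q d S ≤ ∑ p ∈ Q.W, (ξ p + rr p * cap p) := by
  unfold Om
  rw [hom]
  exact sum_le_sum fun p hp => omg_le_const (hξ p hp) (hrr p hp) _ _ _

/-- the inequality `MaxI` for the functional `omg` -/
theorem maxI_F (hom : Q.om = omF ξ rr cap Hh) (hξ : ∀ p ∈ Q.W, 0 ≤ ξ p)
    (hrr : ∀ p ∈ Q.W, 0 ≤ rr p) {N d M : ℕ} {A0 : Finset ℤ} {a : ℤ} {x : ℕ → ℝ} {L : ℝ}
    (hm : Mx Q N A0 d a M x L) (h2 : 2 * Q.Mm ≤ M) (hD : 4 ≤ Q.D0) {OB : ℝ}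
    (hOB : ∑ p ∈ Q.W, (ξ p + rr p * cap p) ≤ OB) :
    MaxI x 1 M (fun n => M * x n ≤ Real.exp (Q.D0 / 2)) 2 (Err Q M L OB 2 (1 / M)) Q.W
      (fun p => omg (ξ p) (rr p) (cap p) (Hh d) p) := by
  have hK : (2 : ℝ) ≤ Real.exp (Q.D0 / 4) := by
    have h1 := Real.add_one_le_exp (Q.D0 / 4)
    linarith
  have h := maxI_of_master hm h2 (fun S => (Om_le_F hom hξ hrr d S).trans hOB)
    (by norm_num : (1:ℝ) ≤ 2) hK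
  intro y hy hac hG hKx
  have h1 := h y hy hac hG hKx
  have e : ∀ z : ℕ → ℝ, ∑ q ∈ Q.W, Q.om q d (supp z 1 M q)
      = ∑ q ∈ Q.W, omg (ξ q) (rr q) (cap q) (Hh d) q (supp z 1 M q) := by
    intro z
    refine sum_congr rfl fun q _ => ?_
    rw [hom]
    unfold omF
    rw [inter_eq_left.2 (supp_subset z 1 M q)]
  have h3 : ∑ q ∈ Q.W, Q.om q d (supp y 1 M q) ≤
      (∑ i ∈ range M, y (1 + i) * Real.log (y (1 + i) / x (1 + i))) +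
        ∑ q ∈ Q.W, Q.om q d (supp x 1 M q) + _ := h1
  rw [e y, e x] at h3
  exact h3

/-- **atoms at the maximiser** -/
theorem atoms_F (hom : Q.om = omF ξ rr cap Hh) (hξ : ∀ p ∈ Q.W, 0 ≤ ξ p)
    (hrr : ∀ p ∈ Q.W, 0 ≤ rr p) {N d M : ℕ} {A0 : Finset ℤ} {a : ℤ} {x : ℕ → ℝ} {L : ℝ}
    (hm : Mx Q N A0 d a M x L) (h2 : 2 * Q.Mm ≤ M) (hD : 4 ≤ Q.D0) {OB : ℝ}
    (hOB : ∑ p ∈ Q.W, (ξ p + rr p * cap p) ≤ OB) {p : ℕ} (hpW : p ∈ Q.W)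
    (hξ1 : ξ p / p - Err Q M L OB 2 (1 / M) ≤ 1)
    (herr : Err Q M L OB 2 (1 / M) / 2 + badm x M Q.D0 ≤ ξ p / p / 6)
    {b : ℕ} (hb : b < p) (h0 : cm x 1 M p b ≠ 0) : ξ p / (3 * p) ≤ cm x 1 M p b :=
  atoms hm.mx.1.law le_rfl hξ hrr (maxI_F hom hξ hrr hm h2 hD hOB) (hm.ok.hW p hpW) hpW hξ1 herr
    hb h0

/-- **row and column sums at the maximiser** -/
theorem rows_F (hom : Q.om = omF ξ rr cap Hh) (hξ : ∀ p ∈ Q.W, 0 ≤ ξ p)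
    (hrr : ∀ p ∈ Q.W, 0 ≤ rr p) {N d M : ℕ} {A0 : Finset ℤ} {a : ℤ} {x : ℕ → ℝ} {L : ℝ}
    (hm : Mx Q N A0 d a M x L) (h2 : 2 * Q.Mm ≤ M) (hD : 4 ≤ Q.D0) {OB : ℝ}
    (hOB : ∑ p ∈ Q.W, (ξ p + rr p * cap p) ≤ OB) {p : ℕ} (hpW : p ∈ Q.W)
    (hd : 0 < dns (Hh d) p) (hr1 : rr p - Err Q M L OB 2 (1 / M) ≤ 1)
    (herr : Err Q M L OB 2 (1 / M) / 2 + badm x M Q.D0 ≤ rr p / 8)
    (hcap : (miss (Hh d) p (supp x 1 M p) : ℝ) + 1 ≤ cap p)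
    (hat : ∀ b, cm x 1 M p b ≤ rr p / 8) {b : ℕ} (hb : b < p) (h0 : cm x 1 M p b ≠ 0) :
    rr p / 4 ≤ ∑ c ∈ range p, cm x 1 M p c * (1 + kN (Hh d) p ((b : ℤ) - c)) ∧
      rr p / 4 ≤ ∑ c ∈ range p, cm x 1 M p c * (1 + kN (Hh d) p ((c : ℤ) - b)) :=
  rows hm.mx.1.law le_rfl hξ hrr (maxI_F hom hξ hrr hm h2 hD hOB) (hm.ok.hW p hpW) hpW hd hr1
    herr hcap hat hb h0

/-- the numbers at one prime -/
structure OneP (k : ℕ) (p : ℕ) (rrp capp Dp e kl : ℝ) : Prop where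
  hp16 : 16 * (k : ℝ) ^ 2 ≤ p
  D1 : 1 ≤ Dp
  r0 : 0 < rrp
  r1 : rrp ≤ 1
  err : e ≤ rrp / 8
  cap : 32 * (k : ℝ) ^ 2 * Dp + 1 ≤ capp
  at' : 8 * Dp ≤ rrp * p
  small : 1024 * k * Dp ^ 3 * kl ≤ rrp ^ 2 * √(p : ℝ)

/-- **one prime at the maximiser of 945's functional**: 954's one-body data, any parameters whose
support term is `omF` -/
theorem kd_F {h : ℤ[X]} {lam : ℕ → ℕ} {r : ℕ → ℤ} {R : ℕ} (hA : AuxData h lam r Hh R)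
    (hk : 1 ≤ h.natDegree) (hW : ∀ p ∈ Q.W, p.Prime ∧ R < p ∧ 2 * h.natDegree ≤ p)
    (hom : Q.om = omF ξ rr cap Hh) (hξ : ∀ p ∈ Q.W, 0 ≤ ξ p) (hrr : ∀ p ∈ Q.W, 0 ≤ rr p)
    {N d M : ℕ} {A0 : Finset ℤ} {a : ℤ} {x : ℕ → ℝ} {L : ℝ}
    (hm : Mx Q N A0 d a M x L) (h2 : 2 * Q.Mm ≤ M) (hD : 4 ≤ Q.D0) {OB : ℝ}
    (hOB : ∑ p ∈ Q.W, (ξ p + rr p * cap p) ≤ OB)
    {PP : Finset ℕ} (hPP : NS (Hh d) PP) {p : ℕ} (hpW : p ∈ Q.W) (hpP : p ∈ PP)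
    (hG : ∀ b : ℤ, IsCoprime b (p : ℤ) → ‖Gam (Hh d) b p‖ ≤ h.natDegree / √(p : ℝ))
    {Dp : ℝ} (hDp : ∀ b, p * cm x 1 M p b ≤ Dp)
    (herr0 : 0 ≤ Err Q M L OB 2 (1 / M))
    (hn : OneP h.natDegree p (rr p) (cap p) Dp
      (Err Q M L OB 2 (1 / M) / 2 + badm x M Q.D0) (klu x 1 M p))
    {X Y : Type*} [Fintype X] [Fintype Y] {v : X → ℕ} {w : Y → ℕ} (hX : Rs X p v)
    (hY : Rs Y p w) (hv : ∀ x, v x < p) (hw : ∀ y, w y < p) :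
    KD (fun _ : X => (Fintype.card X : ℝ)⁻¹) (fun _ : Y => (Fintype.card Y : ℝ)⁻¹)
      (fun b => cm x 1 M p (v b)) (fun b => cm x 1 M p (w b))
      (fun b c => kN (Hh d) p ((v b : ℤ) - w c)) (4 * h.natDegree / √(p : ℝ)) Dp (rr p / 4)
      √(2 * Dp * klu x 1 M p) := by
  classical
  obtain ⟨hp, hpR, hpk⟩ := hW p hpW
  have hd : 1 ≤ d := hm.mx.1.hd
  have hp0 : (0:ℝ) < p := by exact_mod_cast hp.pos
  have hs : 0 < √(p : ℝ) := Real.sqrt_pos.2 hp0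
  have hdeg := hA.natDegree_H hk d hd
  obtain ⟨g1, g2⟩ := good_prime hA hk hp hd hpR hpk
  have hGN : ∀ b : ℤ, IsCoprime b (p : ℤ) →
      ‖GamN (Hh d) PP b p‖ ≤ 4 * h.natDegree / √(p : ℝ) := by
    intro b hb
    have h3 := (GamN_le hPP hpP (by omega) (by omega) g1 (a := b) (by rw [hdeg]; exact hG b hb)).1
    rwa [hdeg] at h3
  have hk0 : (0:ℝ) ≤ h.natDegree := Nat.cast_nonneg _
  have hρ1 : 4 * (h.natDegree : ℝ) / √(p : ℝ) ≤ 1 := by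
    rw [div_le_one hs]
    refine Real.le_sqrt_of_sq_le ?_
    linarith [hn.hp16]
  have hρ2 : (4 * (h.natDegree : ℝ) / √(p : ℝ)) ^ 2 * p = 16 * (h.natDegree : ℝ) ^ 2 := by
    rw [div_pow, Real.sq_sqrt hp0.le]
    field_simp
    ring
  refine kd_of_state hm.mx.1.law le_rfl hξ hrr (maxI_F hom hξ hrr hm h2 hD hOB) hPP hpW hpP
    (by positivity) hρ1 hGN hn.D1 hDp hn.r0 hn.r1 herr0 hn.err ?_ hn.at' ?_ hX hY hv hw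
  · have : 2 * (4 * (h.natDegree : ℝ) / √(p : ℝ)) ^ 2 * p * Dp =
        32 * (h.natDegree : ℝ) ^ 2 * Dp := by
      rw [mul_assoc 2, hρ2]; ring
    rw [this]
    exact hn.cap
  · have : 256 * (4 * (h.natDegree : ℝ) / √(p : ℝ)) * Dp ^ 3 * klu x 1 M p =
        (1024 * h.natDegree * Dp ^ 3 * klu x 1 M p) / √(p : ℝ) := by ring
    rw [this, div_le_iff₀ hs]
    exact hn.small

end gen

end Vale.Agent.P042.H383
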