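import Vale.Agent.P042.H383.OkP

set_option autoImplicit false

/-!
P042, row D.1: numerics of (HB) in the power regime.
-/

namespace Vale.Agent.P042.H383

open Finset Polynomial

/-- the thresholds -/
structure BigP (C1 : ℕ) (g Cq P : ℝ) : Prop where
  C : 1 ≤ C1
  g0 : 0 < g
  g1 : g ≤ 1
  Cq0 : 0 ≤ Cq
  P1 : 64 ≤ P
  Pg : 16 * Cq + 1 ≤ P ^ (g / 8)
  Pl : 1 ≤ Real.log P
  Pm : 2 * (64 * C1) ≤ P ^ (1 / 2 : ℝ)

theorem exists_big (C1 : ℕ) (hC1 : 1 ≤ C1) (g : ℝ) (hg : 0 < g) (hg1 : g ≤ 1) (Cq : ℝ)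
    (hCq : 0 ≤ Cq) : ∃ P0 : ℝ, ∀ P : ℝ, P0 ≤ P → BigP C1 g Cq P := by
  obtain ⟨Pg, hPg⟩ := Filter.eventually_atTop.1
    ((tendsto_rpow_atTop (by positivity : 0 < g / 8)).eventually_ge_atTop (16 * Cq + 1))
  obtain ⟨Pl, hPl⟩ := Filter.eventually_atTop.1
    (Real.tendsto_log_atTop.eventually_ge_atTop (1 : ℝ))
  obtain ⟨Pm, hPm⟩ := Filter.eventually_atTop.1
    ((tendsto_rpow_atTop (by norm_num : (0:ℝ) < 1 / 2)).eventually_ge_atTop (2 * (64 * (C1 : ℝ))))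
  refine ⟨max (max Pg Pl) (max Pm 64), fun P hP => ⟨hC1, hg, hg1, hCq, ?_, ?_, ?_, ?_⟩⟩
  · exact ((le_max_right _ _).trans (le_max_right _ _)).trans hP
  · exact hPg P (((le_max_left _ _).trans (le_max_left _ _)).trans hP)
  · exact hPl P (((le_max_right _ _).trans (le_max_left _ _)).trans hP)
  · exact hPm P (((le_max_left _ _).trans (le_max_right _ _)).trans hP)

namespace BigP

variable {C1 : ℕ} {g Cq P : ℝ} (h : BigP C1 g Cq P)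

include h

theorem P0 : 0 < P := by linarith [h.P1]

theorem C0 : (1 : ℝ) ≤ C1 := by exact_mod_cast h.C

theorem l8 : Real.log P ≤ 8 * P ^ (1 / 8 : ℝ) := by
  have := Real.log_le_rpow_div h.P0.le (by norm_num : (0:ℝ) < 1 / 8)
  linarith

theorem l2 : Real.log P ≤ 2 * P ^ (1 / 2 : ℝ) := by
  have := Real.log_le_rpow_div h.P0.le (by norm_num : (0:ℝ) < 1 / 2)
  linarith

theorem exists_m : ∃ m : ℕ, 1 ≤ m ∧ P / (64 * C1) ≤ m * Real.log P ∧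
    (m : ℝ) * Real.log P ≤ P / (32 * C1) := by
  have hl1 := h.Pl
  have hl0 : 0 < Real.log P := by linarith
  have hC := h.C0
  have hC0 : (0:ℝ) < 64 * C1 := by linarith
  have hPh : P ^ (1 / 2 : ℝ) * P ^ (1 / 2 : ℝ) = P := by
    rw [← Real.rpow_add h.P0]; norm_num
  have hs : 0 < P ^ (1 / 2 : ℝ) := Real.rpow_pos_of_pos h.P0 _
  have h1 : 1 ≤ P / (64 * C1) / Real.log P := by
    rw [le_div_iff₀ hl0, one_mul, le_div_iff₀ hC0]
    calc Real.log P * (64 * C1) ≤ (2 * P ^ (1 / 2 : ℝ)) * (64 * C1) :=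
          mul_le_mul_of_nonneg_right h.l2 hC0.le
      _ = P ^ (1 / 2 : ℝ) * (2 * (64 * C1)) := by ring
      _ ≤ P ^ (1 / 2 : ℝ) * P ^ (1 / 2 : ℝ) := mul_le_mul_of_nonneg_left h.Pm hs.le
      _ = P := hPh
  refine ⟨⌈P / (64 * C1) / Real.log P⌉₊, Nat.one_le_ceil_iff.2 (by linarith), ?_, ?_⟩
  · rw [← div_le_iff₀ hl0]
    exact Nat.le_ceil _
  · rw [← le_div_iff₀ hl0]
    have h2 := (Nat.ceil_lt_add_one (by linarith : 0 ≤ P / (64 * C1) / Real.log P)).le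
    have h3 : P / (32 * C1) / Real.log P = 2 * (P / (64 * C1) / Real.log P) := by
      field_simp
      ring
    rw [h3]
    linarith

omit h in
theorem logY {Y : ℕ} (hY1 : 1 ≤ Y) (hY : (Y : ℝ) ≤ P ^ C1) : Real.log Y ≤ C1 * Real.log P := by
  rw [← Real.log_pow]
  exact Real.log_le_log (by exact_mod_cast hY1) hY

theorem moment_cond {Y m : ℕ} (hY1 : 1 ≤ Y) (hY : (Y : ℝ) ≤ P ^ C1) {W : Finset ℕ}
    (hW : ∀ p ∈ W, 1 ≤ p ∧ p ≤ Y) (hm : (m : ℝ) * Real.log P ≤ P / (32 * C1)) :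
    2 * (8 * (W.card : ℝ) * Y) ^ (2 * m) ≤ Real.exp (P / 4) := by
  have hP1 := h.P1
  have hexp : Real.exp (Real.log P) = P := Real.exp_log h.P0
  have hcard : (W.card : ℝ) ≤ P ^ C1 := by
    refine le_trans ?_ hY
    have h1 : W ⊆ Finset.Icc 1 Y := fun p hp => Finset.mem_Icc.2 (hW p hp)
    have h2 := Finset.card_le_card h1
    rw [Nat.card_Icc] at h2
    exact_mod_cast (by omega : W.card ≤ Y)
  have h8 : (8 : ℝ) ≤ P ^ C1 := by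
    calc (8:ℝ) ≤ P := by linarith
      _ = P ^ 1 := (pow_one P).symm
      _ ≤ P ^ C1 := pow_le_pow_right₀ (by linarith) h.C
  have hbase : 8 * (W.card : ℝ) * Y ≤ Real.exp (3 * C1 * Real.log P) := by
    calc 8 * (W.card : ℝ) * Y ≤ P ^ C1 * P ^ C1 * P ^ C1 := by gcongr
      _ = Real.exp (3 * C1 * Real.log P) := by
        rw [show 3 * (C1 : ℝ) * Real.log P = C1 * Real.log P + C1 * Real.log P + C1 * Real.log P
          by ring, Real.exp_add, Real.exp_add, Real.exp_nat_mul, hexp]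
  calc 2 * (8 * (W.card : ℝ) * Y) ^ (2 * m)
      ≤ Real.exp 1 * Real.exp (3 * C1 * Real.log P) ^ (2 * m) := by
        have : (2 : ℝ) ≤ Real.exp 1 := by linarith [Real.add_one_le_exp (1 : ℝ)]
        gcongr
    _ = Real.exp (1 + (2 * m : ℕ) * (3 * C1 * Real.log P)) := by
        rw [Real.exp_add, ← Real.exp_nat_mul]
    _ ≤ Real.exp (P / 4) := by
        refine Real.exp_le_exp.2 ?_
        push_cast
        have hC := h.C0
        have h2 : (C1 : ℝ) * (m * Real.log P) ≤ C1 * (P / (32 * C1)) :=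
          mul_le_mul_of_nonneg_left hm (by linarith)
        have h3 : (C1 : ℝ) * (P / (32 * C1)) = P / 32 := by
          field_simp
        have h4 : 2 * (m : ℝ) * (3 * C1 * Real.log P) = 6 * (C1 * (m * Real.log P)) := by ring
        rw [h4]
        linarith

theorem sum_one {W : Finset ℕ} {q : ℕ → ℝ} (hW : ∀ p ∈ W, 1 ≤ p)
    (hq : ∀ p ∈ W, q p ≤ Cq * (p : ℝ) ^ (-g)) :
    ∑ p ∈ W.filter (fun p => p ≤ ⌊P ^ (1 / 2 : ℝ)⌋₊), q p * Real.log p ≤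
      4 * Cq * P ^ (5 / 8 : ℝ) := by
  have hP0 := h.P0
  have hCq := h.Cq0
  have hg := h.g0
  have hs0 : 0 ≤ P ^ (1 / 2 : ℝ) := Real.rpow_nonneg hP0.le _
  have hl8 := h.l8
  have h1 : ∀ p ∈ W.filter (fun p => p ≤ ⌊P ^ (1 / 2 : ℝ)⌋₊),
      q p * Real.log p ≤ Cq * (4 * P ^ (1 / 8 : ℝ)) := by
    intro p hp
    obtain ⟨hpW, hpy⟩ := mem_filter.1 hp
    have hp1 : (1 : ℝ) ≤ p := by exact_mod_cast hW p hpW
    have h2 : (p : ℝ) ≤ P ^ (1 / 2 : ℝ) :=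
      le_trans (by exact_mod_cast hpy) (Nat.floor_le hs0)
    have h3 : Real.log p ≤ 4 * P ^ (1 / 8 : ℝ) := by
      have := Real.log_le_log (by linarith) h2
      rw [Real.log_rpow hP0] at this
      linarith
    have h4 : q p ≤ Cq := by
      refine (hq p hpW).trans ?_
      have : (p : ℝ) ^ (-g) ≤ 1 := Real.rpow_le_one_of_one_le_of_nonpos hp1 (by linarith)
      calc Cq * (p : ℝ) ^ (-g) ≤ Cq * 1 := mul_le_mul_of_nonneg_left this hCq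
        _ = Cq := mul_one _
    have h5 : 0 ≤ Real.log p := Real.log_nonneg hp1
    calc q p * Real.log p ≤ Cq * Real.log p := mul_le_mul_of_nonneg_right h4 h5
      _ ≤ _ := mul_le_mul_of_nonneg_left h3 hCq
  have h2 : ((W.filter (fun p => p ≤ ⌊P ^ (1 / 2 : ℝ)⌋₊)).card : ℝ) ≤ P ^ (1 / 2 : ℝ) := by
    have e1 : W.filter (fun p => p ≤ ⌊P ^ (1 / 2 : ℝ)⌋₊) ⊆
        Finset.Icc 1 ⌊P ^ (1 / 2 : ℝ)⌋₊ := fun p hp =>
      Finset.mem_Icc.2 ⟨hW p (mem_filter.1 hp).1, (mem_filter.1 hp).2⟩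
    have e2 := Finset.card_le_card e1
    rw [Nat.card_Icc] at e2
    have e3 : ((W.filter (fun p => p ≤ ⌊P ^ (1 / 2 : ℝ)⌋₊)).card : ℝ) ≤
        (⌊P ^ (1 / 2 : ℝ)⌋₊ : ℝ) := by exact_mod_cast (by omega)
    exact e3.trans (Nat.floor_le hs0)
  refine (sum_le_card_nsmul _ _ _ h1).trans ?_
  rw [nsmul_eq_mul]
  have h3 : P ^ (5 / 8 : ℝ) = P ^ (1 / 2 : ℝ) * P ^ (1 / 8 : ℝ) := by
    rw [← Real.rpow_add hP0]; norm_num
  rw [h3]
  have h8 : 0 ≤ P ^ (1 / 8 : ℝ) := Real.rpow_nonneg hP0.le _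
  calc ((W.filter (fun p => p ≤ ⌊P ^ (1 / 2 : ℝ)⌋₊)).card : ℝ) * (Cq * (4 * P ^ (1 / 8 : ℝ)))
      ≤ P ^ (1 / 2 : ℝ) * (Cq * (4 * P ^ (1 / 8 : ℝ))) :=
        mul_le_mul_of_nonneg_right h2 (mul_nonneg hCq (by linarith))
    _ = _ := by ring

theorem sum_two {Y m : ℕ} (hY1 : 1 ≤ Y) (hY : (Y : ℝ) ≤ P ^ C1) (hm1 : 1 ≤ m)
    (hm : P / (64 * C1) ≤ m * Real.log P) (hm' : (m : ℝ) * Real.log P ≤ P / (32 * C1))
    {D0 : ℝ} (hD : D0 ≤ g / (1024 * C1) * P) :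
    Cq * P ^ (-(g / 2)) * ((1 + Real.log Y) * (128 * m * Real.exp (2 * D0 / m))) ≤
      8 * Cq * P ^ (1 - 3 * g / 8) := by
  have hP0 := h.P0
  have hCq := h.Cq0
  have hg := h.g0
  have hC := h.C0
  have hl1 := h.Pl
  have hm0 : (0 : ℝ) < m := by exact_mod_cast hm1
  have h1 : Real.exp (2 * D0 / m) ≤ P ^ (g / 8) := by
    rw [Real.rpow_def_of_pos hP0]
    refine Real.exp_le_exp.2 ?_
    rw [div_le_iff₀ hm0]
    have h3 : g / (1024 * C1) * P = g / 16 * (P / (64 * C1)) := by field_simp; ring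
    have h4 : D0 ≤ g / 16 * (m * Real.log P) := by
      rw [h3] at hD
      exact hD.trans (mul_le_mul_of_nonneg_left hm (by linarith))
    linarith
  have h2 : (1 + Real.log Y) * (128 * m) ≤ 8 * P := by
    have hlogY := logY (P := P) (C1 := C1) hY1 hY
    have e1 : 1 + Real.log Y ≤ 2 * C1 * Real.log P := by nlinarith
    calc (1 + Real.log Y) * (128 * m) ≤ (2 * C1 * Real.log P) * (128 * m) :=
          mul_le_mul_of_nonneg_right e1 (by linarith)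
      _ = (256 * C1) * (m * Real.log P) := by ring
      _ ≤ (256 * C1) * (P / (32 * C1)) := mul_le_mul_of_nonneg_left hm' (by linarith)
      _ = 8 * P := by field_simp; ring
  have h3 : P ^ (1 - 3 * g / 8) = P ^ (-(g / 2)) * (P * P ^ (g / 8)) := by
    have e1 : P * P ^ (g / 8) = P ^ (1 + g / 8) := by
      rw [Real.rpow_add hP0, Real.rpow_one]
    rw [e1, ← Real.rpow_add hP0]
    congr 1
    ring
  rw [h3]
  have h4 : (1 + Real.log Y) * (128 * m * Real.exp (2 * D0 / m)) ≤ 8 * P * P ^ (g / 8) := by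
    calc (1 + Real.log Y) * (128 * m * Real.exp (2 * D0 / m))
        = ((1 + Real.log Y) * (128 * m)) * Real.exp (2 * D0 / m) := by ring
      _ ≤ (8 * P) * P ^ (g / 8) := mul_le_mul h2 h1 (Real.exp_pos _).le (by linarith)
  have h5 : 0 ≤ P ^ (-(g / 2)) := Real.rpow_nonneg hP0.le _
  calc Cq * P ^ (-(g / 2)) * ((1 + Real.log Y) * (128 * m * Real.exp (2 * D0 / m)))
      ≤ Cq * P ^ (-(g / 2)) * (8 * P * P ^ (g / 8)) :=
        mul_le_mul_of_nonneg_left h4 (mul_nonneg hCq h5)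
    _ = _ := by ring

theorem compare {s1 s2 : ℝ} (h1 : s1 ≤ 4 * Cq * P ^ (5 / 8 : ℝ))
    (h2 : s2 ≤ 8 * Cq * P ^ (1 - 3 * g / 8)) : 1 / 4 + (s1 + s2) ≤ P ^ (1 - g / 4) := by
  have hP0 := h.P0
  have hCq := h.Cq0
  have hg := h.g0
  have hg1 := h.g1
  have hP1 := h.P1
  obtain ⟨T, hT⟩ : ∃ T : ℝ, T = P ^ (1 - g / 4) := ⟨_, rfl⟩
  obtain ⟨u, hu⟩ : ∃ u : ℝ, u = P ^ (-(g / 8)) := ⟨_, rfl⟩
  have hu0 : 0 < u := by rw [hu]; exact Real.rpow_pos_of_pos hP0 _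
  have hT1 : 1 ≤ T := by
    rw [hT]; exact Real.one_le_rpow (by linarith) (by linarith)
  have k1 : P ^ (1 - 3 * g / 8) = T * u := by
    rw [hT, hu, ← Real.rpow_add hP0]; congr 1; ring
  have k2 : P ^ (5 / 8 : ℝ) ≤ T * u := by
    rw [hT, hu, ← Real.rpow_add hP0]
    exact Real.rpow_le_rpow_of_exponent_le (by linarith) (by linarith)
  have k3 : (16 * Cq + 1) * u ≤ 1 := by
    have h1 : P ^ (g / 8) * u = 1 := by
      rw [hu, ← Real.rpow_add hP0]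
      simp
    calc (16 * Cq + 1) * u ≤ P ^ (g / 8) * u := mul_le_mul_of_nonneg_right h.Pg hu0.le
      _ = 1 := h1
  rw [← hT]
  rw [k1] at h2
  have k4 : 4 * Cq * P ^ (5 / 8 : ℝ) ≤ 4 * Cq * (T * u) :=
    mul_le_mul_of_nonneg_left k2 (by linarith)
  have k5 : T * (16 * Cq * u) ≤ T * (1 - u) :=
    mul_le_mul_of_nonneg_left (by linarith) (by linarith)
  have k6 : 0 ≤ T * u := by positivity
  have k7 : 0 ≤ Cq * (T * u) := mul_nonneg hCq k6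
  have k8 : T * (16 * Cq * u) = 16 * (Cq * (T * u)) := by ring
  have k9 : T * (1 - u) = T - T * u := by ring
  rw [k8, k9] at k5
  linarith

end BigP

/-- **numerics of (HB), power regime** -/
theorem numP (C1 : ℕ) (hC1 : 1 ≤ C1) (g : ℝ) (hg : 0 < g) (hg1 : g ≤ 1) (Cq : ℝ) (hCq : 0 ≤ Cq) :
    ∃ c0 : ℝ, 0 < c0 ∧ ∃ P0 : ℝ, ∀ P : ℝ, P0 ≤ P → ∀ (W : Finset ℕ) (q : ℕ → ℝ) (D0 : ℝ) (Mm : ℕ),
      (∀ p ∈ W, 1 ≤ p ∧ (p : ℝ) ≤ P ^ C1) → (∀ p ∈ W, q p ≤ Cq * (p : ℝ) ^ (-g)) →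
      0 ≤ D0 → D0 ≤ c0 * P → Real.exp (P / 4) ≤ Mm →
      ∃ (Y y m : ℕ) (c2 : ℝ), 1 ≤ Y ∧ (∀ p ∈ W, p ≤ Y) ∧ 1 ≤ m ∧
        2 * (8 * (W.card : ℝ) * Y) ^ (2 * m) ≤ Mm ∧ 0 ≤ c2 ∧ (∀ p ∈ W, y < p → q p ≤ c2) ∧
        1 / 4 + (∑ p ∈ W.filter (fun p => p ≤ y), q p * Real.log p +
          c2 * ((1 + Real.log Y) * (128 * m * Real.exp (2 * D0 / m)))) ≤ P ^ (1 - g / 4) := by
  obtain ⟨P0, hP0⟩ := exists_big C1 hC1 g hg hg1 Cq hCq
  have hC1r : (1 : ℝ) ≤ C1 := by exact_mod_cast hC1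
  refine ⟨g / (1024 * C1), by positivity, P0, ?_⟩
  intro P hP W q D0 Mm hW hq _ hD hMm
  have h := hP0 P hP
  obtain ⟨m, hm1, hm2, hm3⟩ := h.exists_m
  have hPC : (1 : ℝ) ≤ P ^ C1 := one_le_pow₀ (by linarith [h.P1])
  have hY1 : 1 ≤ ⌊P ^ C1⌋₊ := by
    rw [Nat.one_le_floor_iff]
    exact hPC
  have hYle : ((⌊P ^ C1⌋₊ : ℕ) : ℝ) ≤ P ^ C1 := Nat.floor_le (by linarith)
  have hYW : ∀ p ∈ W, p ≤ ⌊P ^ C1⌋₊ := fun p hp => Nat.le_floor (hW p hp).2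
  refine ⟨⌊P ^ C1⌋₊, ⌊P ^ (1 / 2 : ℝ)⌋₊, m, Cq * P ^ (-(g / 2)), hY1, hYW, hm1,
    (h.moment_cond hY1 hYle (fun p hp => ⟨(hW p hp).1, hYW p hp⟩) hm3).trans hMm,
    mul_nonneg hCq (Real.rpow_nonneg h.P0.le _), ?_,
    h.compare (h.sum_one (fun p hp => (hW p hp).1) hq) (h.sum_two hY1 hYle hm1 hm2 hm3 hD)⟩
  intro p hp hyp
  have h1 : P ^ (1 / 2 : ℝ) < p := (Nat.floor_lt (Real.rpow_nonneg h.P0.le _)).1 hyp
  refine (hq p hp).trans (mul_le_mul_of_nonneg_left ?_ hCq)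
  have h2 : P ^ (-(g / 2)) = (P ^ (1 / 2 : ℝ)) ^ (-g) := by
    rw [← Real.rpow_mul h.P0.le]; ring_nf
  rw [h2]
  exact Real.rpow_le_rpow_of_nonpos (Real.rpow_pos_of_pos h.P0 _) h1.le (by linarith)

end Vale.Agent.P042.H383
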