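import Vale.Agent.P042.H383.RewB
import Vale.Agent.P042.H599.HB
import Vale.Agent.P042.H599.HBS

set_option autoImplicit false

/-!
P042, row D.1: 945's structure `Ok` in the power regime: EI weights, MEI families, rewards.
-/

namespace Vale.Agent.P042.H383

open Finset Polynomial Vale.Agent.P042.H74 Vale.Agent.P042.SS Vale.Agent.P042.H954
open Vale.Agent.P042.H945 (Par Ok Om sp rs)
open Vale.Agent.P042.H599 (cm Law klu kl0 bwt binf)

/-! ### the primes are good -/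

theorem good_prime {h : ℤ[X]} {lam : ℕ → ℕ} {r : ℕ → ℤ} {Hh : ℕ → ℤ[X]} {R : ℕ}
    (hA : AuxData h lam r Hh R) (hk : 1 ≤ h.natDegree) {p d : ℕ} (hp : p.Prime) (hd : 1 ≤ d)
    (hpR : R < p) (hpk : 2 * h.natDegree ≤ p) :
    (∃ j : ℕ, 1 ≤ j ∧ ¬ (p : ℤ) ∣ (Hh d).coeff j) ∧ 1 / 2 ≤ dns (Hh d) p := by
  have h1 : ∃ j : ℕ, 1 ≤ j ∧ ¬ (p : ℤ) ∣ (Hh d).coeff j := by
    by_contra hcon
    push Not at hcon
    have h2 := hA.hgcd d hd p hcon
    have h3 : p ∣ R := by exact_mod_cast h2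
    have h4 := Nat.le_of_dvd hA.hR h3
    omega
  refine ⟨h1, ?_⟩
  have hdeg := hA.natDegree_H hk d hd
  have h2 := dns_ge (Hh d) p hp (by omega) (by omega) h1
  rw [hdeg] at h2
  have hp0 : (0 : ℝ) < p := by exact_mod_cast hp.pos
  have h3 : ((h.natDegree : ℝ) - 1) / p ≤ 1 / 2 := by
    rw [div_le_iff₀ hp0]
    have : (2 : ℝ) * h.natDegree ≤ p := by exact_mod_cast hpk
    linarith
  linarith

/-! ### supports -/

theorem rs_subset {S : Finset ℕ} {p : ℕ} (hp : 0 < p) : rs S p ⊆ range p := by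
  intro a ha
  unfold rs at ha
  obtain ⟨n, _, rfl⟩ := mem_image.1 ha
  exact mem_range.2 (Nat.mod_lt _ hp)

theorem rs_sp {x : ℕ → ℝ} {M p : ℕ} (h : Law x 1 M) (hp : 0 < p) :
    rs (sp x M) p = supp x 1 M p := by
  have h1 := H599.sdiff_rs h hp
  have h2 : range p \ supp x 1 M p = (range p).filter fun a => cm x 1 M p a = 0 := by
    ext a
    unfold supp
    rw [mem_sdiff, mem_filter, mem_filter]
    constructor
    · rintro ⟨h3, h4⟩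
      refine ⟨h3, ?_⟩
      by_contra h5
      exact h4 ⟨h3, h5⟩
    · rintro ⟨h3, h4⟩
      exact ⟨h3, fun h5 => h5.2 h4⟩
  have h3 : range p \ rs (sp x M) p = range p \ supp x 1 M p := by rw [h1, h2]
  have h4 := congrArg (fun T => range p \ T) h3
  simp only [sdiff_sdiff_right_self, inf_eq_inter] at h4
  rwa [inter_eq_right.2 (rs_subset hp), inter_eq_right.2 (supp_subset x 1 M p)] at h4

/-- the support term of the power regime -/
noncomputable def omF (ξ rr cap : ℕ → ℝ) (Hh : ℕ → ℤ[X]) (p d : ℕ) (S : Finset ℕ) : ℝ :=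
  omg (ξ p) (rr p) (cap p) (Hh d) p (S ∩ range p)

theorem omF_rs {ξ rr cap : ℕ → ℝ} {Hh : ℕ → ℤ[X]} {p d : ℕ} (hp : 0 < p) (S : Finset ℕ) :
    omF ξ rr cap Hh p d (rs S p) = omg (ξ p) (rr p) (cap p) (Hh d) p (rs S p) := by
  unfold omF
  rw [inter_eq_left.2 (rs_subset hp)]

/-! ### the parameters -/

/-- finitely many MEI families -/
structure Fams where
  s : Finset ℕ
  Wf : ℕ → Finset ℕ
  t : ℕ → ℕ → ℝ
  K : ℕ → ℕ
  B : ℕ → ℕ
  ω : ℕ → ℝ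

/-- hypotheses on the families -/
structure FamsOk (F : Fams) (Mm : ℕ) : Prop where
  ω0 : ∀ f ∈ F.s, 0 ≤ F.ω f
  ω1 : ∑ f ∈ F.s, F.ω f ≤ 1 / 4
  pr : ∀ f ∈ F.s, ∀ p ∈ F.Wf f, p.Prime
  t0 : ∀ f ∈ F.s, ∀ p ∈ F.Wf f, 0 ≤ F.t f p
  K1 : ∀ f ∈ F.s, 1 ≤ F.K f
  tK : ∀ f ∈ F.s, ∀ p ∈ F.Wf f, F.K f * F.t f p ≤ 1
  B0 : ∀ f ∈ F.s, 0 < F.B f
  BM : ∀ f ∈ F.s, F.B f ^ F.K f ≤ Mm

/-- the parameters of the power regime -/
noncomputable def parP (W : Finset ℕ) (cw ξ rr cap : ℕ → ℝ) (Hh : ℕ → ℤ[X]) (lam : ℕ → ℕ)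
    (F : Fams) (eta D0 E1 : ℝ) (Mm : ℕ) : Par (ℕ ⊕ (Σ _ : ℕ, Finset ℕ)) where
  I := W.disjSum (F.s.sigma fun f => (F.Wf f).powerset.filter fun R => ∏ p ∈ R, p ≤ F.B f)
  m := Sum.elim id fun a => ∏ p ∈ a.2, p
  c := Sum.elim cw fun a => F.ω a.1 * F.K a.1 * bwt (F.t a.1) (F.Wf a.1) a.2
  W := W
  om := omF ξ rr cap Hh
  lam := lam
  eta := eta
  D0 := D0
  E1 := E1
  Mm := Mm

theorem bwt_nonneg {t : ℕ → ℝ} {W R : Finset ℕ} (h0 : ∀ p ∈ W, 0 ≤ t p) (h1 : ∀ p ∈ W, t p ≤ 1)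
    (hR : R ⊆ W) : 0 ≤ bwt t W R := by
  unfold bwt
  refine mul_nonneg (prod_nonneg fun p hp => h0 p (hR hp)) (prod_nonneg fun p hp => ?_)
  linarith [h1 p (mem_sdiff.1 hp).1]

theorem FamsOk.t1 {F : Fams} {Mm : ℕ} (h : FamsOk F Mm) {f : ℕ} (hf : f ∈ F.s) {p : ℕ}
    (hp : p ∈ F.Wf f) : F.t f p ≤ 1 := by
  have h1 := h.tK f hf p hp
  have h2 : (1 : ℝ) ≤ F.K f := by exact_mod_cast h.K1 f hf
  have h3 := h.t0 f hf p hp
  nlinarith

theorem binf_filter (nu : ℕ → ℝ) (A M : ℕ) (W : Finset ℕ) (t : ℕ → ℝ) (B : ℕ) :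
    binf nu A M W t B =
      ∑ R ∈ W.powerset.filter (fun R => ∏ p ∈ R, p ≤ B), bwt t W R * klu nu A M (∏ p ∈ R, p) := by
  unfold binf
  rw [sum_filter]
  refine sum_congr rfl fun R _ => ?_
  split_ifs
  · rfl
  · rw [mul_zero]

/-- the sum over all moduli -/
theorem sum_parP (W : Finset ℕ) (cw ξ rr cap : ℕ → ℝ) (Hh : ℕ → ℤ[X]) (lam : ℕ → ℕ)
    (F : Fams) (eta D0 E1 : ℝ) (Mm : ℕ) (x : ℕ → ℝ) (M : ℕ) :
    ∑ i ∈ (parP W cw ξ rr cap Hh lam F eta D0 E1 Mm).I,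
      (parP W cw ξ rr cap Hh lam F eta D0 E1 Mm).c i *
        klu x 1 M ((parP W cw ξ rr cap Hh lam F eta D0 E1 Mm).m i) =
    ∑ p ∈ W, cw p * klu x 1 M p +
      ∑ f ∈ F.s, F.ω f * F.K f * binf x 1 M (F.Wf f) (F.t f) (F.B f) := by
  unfold parP
  simp only
  rw [sum_disjSum, sum_sigma]
  simp only [Sum.elim_inl, Sum.elim_inr, id]
  congr 1
  refine sum_congr rfl fun f _ => ?_
  rw [binf_filter, mul_sum]
  refine sum_congr rfl fun R _ => ?_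
  ring

/-- total weight at the prime `p` -/
noncomputable def qw (cw ξ rr cap : ℕ → ℝ) (k : ℕ) (p : ℕ) : ℝ :=
  cw p + (ξ p + 2 * k * (rr p * cap p))

/-- **(HB) in the power regime** -/
theorem HB_P {h : ℤ[X]} {lam : ℕ → ℕ} {r : ℕ → ℤ} {Hh : ℕ → ℤ[X]} {R : ℕ}
    (hA : AuxData h lam r Hh R) (hk : 1 ≤ h.natDegree) (W : Finset ℕ)
    (hW : ∀ p ∈ W, p.Prime ∧ R < p ∧ 2 * h.natDegree ≤ p) {cw ξ rr cap : ℕ → ℝ}
    (hcw : ∀ p ∈ W, 0 ≤ cw p) (hξ : ∀ p ∈ W, 0 ≤ ξ p) (hrr : ∀ p ∈ W, 0 ≤ rr p)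
    (hcap : ∀ p ∈ W, 0 ≤ cap p) {F : Fams} {Mm : ℕ} (hF : FamsOk F Mm)
    {Y y m : ℕ} (hY1 : 1 ≤ Y) (hY : ∀ p ∈ W, p ≤ Y) (hm : 1 ≤ m) {D : ℝ} (hD : 0 ≤ D)
    (hM : 2 * (8 * (W.card : ℝ) * Y) ^ (2 * m) ≤ Mm) {c2 : ℝ} (hc0 : 0 ≤ c2)
    (hc2 : ∀ p ∈ W, y < p → qw cw ξ rr cap h.natDegree p ≤ c2)
    {d M : ℕ} {x : ℕ → ℝ} (hd : 1 ≤ d) (hMM : Mm ≤ M) (hx : Law x 1 M)
    (hb : ∀ i < M, x (1 + i) ≤ Real.exp D / M) :
    (∑ p ∈ W, cw p * klu x 1 M p +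
      ∑ f ∈ F.s, F.ω f * F.K f * binf x 1 M (F.Wf f) (F.t f) (F.B f)) +
      ∑ p ∈ W, omF ξ rr cap Hh p d (rs (sp x M) p) ≤
    kl0 x 1 M / 4 + (1 / 4 +
      (∑ p ∈ W.filter (fun p => p ≤ y), qw cw ξ rr cap h.natDegree p * Real.log p +
        c2 * ((1 + Real.log Y) * (128 * m * Real.exp (D / m))))) := by
  classical
  have hpos : ∀ p ∈ W, 0 < p := fun p hp => (hW p hp).1.pos
  have hcop : ∀ T : Finset ℕ, T ⊆ W → (T : Set ℕ).Pairwise Nat.Coprime := by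
    intro T hT p hp q hq hpq
    exact (Nat.coprime_primes (hW p (hT hp)).1 (hW q (hT hq)).1).2 hpq
  have hq0 : ∀ p ∈ W, 0 ≤ qw cw ξ rr cap h.natDegree p := by
    intro p hp
    have h1 := hcw p hp
    have h2 := hξ p hp
    have h3 := hrr p hp
    have h4 := hcap p hp
    unfold qw
    positivity
  -- the rewards
  have e1 : ∑ p ∈ W, omF ξ rr cap Hh p d (rs (sp x M) p) ≤
      ∑ p ∈ W, (ξ p + 2 * h.natDegree * (rr p * cap p)) * klu x 1 M p := by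
    refine sum_le_sum fun p hp => ?_
    obtain ⟨g1, g2⟩ := good_prime hA hk (hW p hp).1 hd (hW p hp).2.1 (hW p hp).2.2
    have h1 := omg_le_klu (hW p hp).1 g1 g2 (hξ p hp) (hrr p hp) (hcap p hp) hx
    rw [hA.natDegree_H hk d hd] at h1
    rw [omF_rs (hpos p hp), rs_sp hx (hpos p hp)]
    exact h1
  -- the families
  have e2 := H599.mei_families hx F.s F.Wf F.t F.K F.B F.ω hF.ω0
    (fun f hf p hp => (hF.pr f hf p hp).pos)
    (fun f hf p hp q hq hpq => (Nat.coprime_primes (hF.pr f hf p hp) (hF.pr f hf q hq)).2 hpq)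
    hF.t0 hF.tK hF.B0 (fun f hf => (hF.BM f hf).trans hMM)
  have e3 := H599.kl0_nonneg hx
  have e4 : Real.log 2 ≤ 1 := by
    have := Real.log_le_sub_one_of_pos (show (0 : ℝ) < 2 by norm_num); linarith
  have e5 : 0 ≤ Real.log 2 := Real.log_nonneg (by norm_num)
  have e6 : (∑ f ∈ F.s, F.ω f) * (kl0 x 1 M + Real.log 2) ≤ kl0 x 1 M / 4 + 1 / 4 := by
    have := mul_le_mul_of_nonneg_right hF.ω1 (by linarith : 0 ≤ kl0 x 1 M + Real.log 2)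
    linarith
  -- level one
  have hY' : ∀ p ∈ W.filter (fun p => ¬ p ≤ y), p ≤ Y := fun p hp => hY p (mem_filter.1 hp).1
  have hMr : (Mm : ℝ) ≤ M := by exact_mod_cast hMM
  have hcard : ((W.filter (fun p => ¬ p ≤ y)).card : ℝ) ≤ W.card := by
    exact_mod_cast card_le_card (filter_subset _ _)
  have hM2 : 2 * (8 * ((W.filter (fun p => ¬ p ≤ y)).card : ℝ) * Y) ^ (2 * m) ≤ M := by
    refine le_trans ?_ (hM.trans hMr)
    gcongr
  have e7 := H599.level1_weighted hx (W.filter (fun p => p ≤ y)) (W.filter (fun p => ¬ p ≤ y))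
    (fun p hp => hpos p (mem_filter.1 hp).1) (fun p hp => hpos p (mem_filter.1 hp).1)
    (hcop _ (filter_subset _ _)) hY1 hY' hm hD hb hM2 (qw cw ξ rr cap h.natDegree)
    (fun p hp => hq0 p (mem_filter.1 hp).1)
    (fun p hp => hc2 p (mem_filter.1 hp).1 (not_le.1 (mem_filter.1 hp).2)) hc0
  rw [sum_filter_add_sum_filter_not] at e7
  have e8 : ∑ p ∈ W, qw cw ξ rr cap h.natDegree p * klu x 1 M p =
      ∑ p ∈ W, cw p * klu x 1 M p +
        ∑ p ∈ W, (ξ p + 2 * h.natDegree * (rr p * cap p)) * klu x 1 M p := by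
    rw [← sum_add_distrib]
    refine sum_congr rfl fun p _ => ?_
    unfold qw
    ring
  linarith

/-- **945's structure `Ok` in the power regime** -/
theorem ok_P {h : ℤ[X]} {lam : ℕ → ℕ} {r : ℕ → ℤ} {Hh : ℕ → ℤ[X]} {R : ℕ}
    (hA : AuxData h lam r Hh R) (hk : 1 ≤ h.natDegree) (W : Finset ℕ)
    (hW : ∀ p ∈ W, p.Prime ∧ R < p ∧ 2 * h.natDegree ≤ p) {cw ξ rr cap : ℕ → ℝ}
    (hcw : ∀ p ∈ W, 0 ≤ cw p) (hξ : ∀ p ∈ W, 0 ≤ ξ p) (hrr : ∀ p ∈ W, 0 ≤ rr p)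
    (hcap : ∀ p ∈ W, 0 ≤ cap p) {F : Fams} {Mm : ℕ} (hF : FamsOk F Mm) (hMm : 2 ≤ Mm)
    {Y y m : ℕ} (hY1 : 1 ≤ Y) (hY : ∀ p ∈ W, p ≤ Y) (hm : 1 ≤ m) {eta D0 E1 : ℝ}
    (he0 : 0 < eta) (he1 : eta ≤ 1) (hD : 0 < D0)
    (hM : 2 * (8 * (W.card : ℝ) * Y) ^ (2 * m) ≤ Mm) {c2 : ℝ} (hc0 : 0 ≤ c2)
    (hc2 : ∀ p ∈ W, y < p → qw cw ξ rr cap h.natDegree p ≤ c2)
    (hE : 1 / 4 + (∑ p ∈ W.filter (fun p => p ≤ y), qw cw ξ rr cap h.natDegree p * Real.log p +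
        c2 * ((1 + Real.log Y) * (128 * m * Real.exp (2 * D0 / m)))) ≤ E1) :
    Ok (parP W cw ξ rr cap Hh lam F eta D0 E1 Mm) where
  hm := by
    intro i hi
    have hi' : i ∈ W.disjSum (F.s.sigma fun f =>
      (F.Wf f).powerset.filter fun R => ∏ p ∈ R, p ≤ F.B f) := hi
    rw [mem_disjSum] at hi'
    rcases hi' with ⟨p, hp, rfl⟩ | ⟨a, ha, rfl⟩
    · exact (hW p hp).1.pos
    · rw [mem_sigma, mem_filter, mem_powerset] at ha
      exact prod_pos fun p hp => (hF.pr a.1 ha.1 p (ha.2.1 hp)).pos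
  hc := by
    intro i hi
    have hi' : i ∈ W.disjSum (F.s.sigma fun f =>
      (F.Wf f).powerset.filter fun R => ∏ p ∈ R, p ≤ F.B f) := hi
    rw [mem_disjSum] at hi'
    rcases hi' with ⟨p, hp, rfl⟩ | ⟨a, ha, rfl⟩
    · exact hcw p hp
    · rw [mem_sigma, mem_filter, mem_powerset] at ha
      have h1 := bwt_nonneg (R := a.2) (fun p hp => hF.t0 a.1 ha.1 p hp)
        (fun p hp => hF.t1 ha.1 hp) ha.2.1
      have h2 := hF.ω0 a.1 ha.1
      show 0 ≤ F.ω a.1 * F.K a.1 * bwt (F.t a.1) (F.Wf a.1) a.2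
      positivity
  hW := fun p hp => (hW p hp).1.pos
  om0 := fun p hp d S => omg_nonneg (hξ p hp) (hrr p hp) (hcap p hp) _ _ _
  omt := by
    intro p hp d D b S S' hd hD' hpD hS
    have hp' := (hW p hp).1
    refine omg_transport hA (hξ p hp) (hrr p hp) hp' hd hD'
      (fun h1 => by
        have := (Nat.Prime.coprime_iff_not_dvd hp').1 hpD
        exact this h1) (c := (b : ℤ)) inter_subset_right ?_
    intro z hz
    refine ⟨(b + lam D * z) % p, ?_, ?_⟩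
    · rw [mem_inter]
      exact ⟨hS z (mem_inter.1 hz).1, mem_range.2 (Nat.mod_lt _ hp'.pos)⟩
    · have : ((b : ℤ) + lam D * z) = (((b + lam D * z : ℕ)) : ℤ) := by push_cast; ring
      rw [this]
      push_cast
      exact Int.dvd_self_sub_emod
  lam1 := by
    have h1 := hA.hmul 1 1 le_rfl le_rfl
    rw [mul_one] at h1
    have h2 := hA.lam_pos 1 le_rfl
    have h3 : lam 1 * 1 = lam 1 * lam 1 := by rw [mul_one]; exact h1
    exact (Nat.eq_of_mul_eq_mul_left h2 h3).symm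
  lamm := hA.hmul
  lamd := fun d hd => (hA.hdvd d hd).1
  lamc := fun d p hd hpd => Nat.Coprime.coprime_dvd_right (hA.hdvd d hd).2
    (Nat.Coprime.pow_right _ hpd)
  lam0 := fun d hd => hA.lam_pos d hd
  eta0 := he0
  eta1 := he1
  Mm1 := hMm
  D00 := hD
  E10 := by
    show 0 ≤ E1
    refine le_trans ?_ hE
    have h1 : 0 ≤ ∑ p ∈ W.filter (fun p => p ≤ y), qw cw ξ rr cap h.natDegree p * Real.log p := by
      refine sum_nonneg fun p hp => ?_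
      have hp' := (mem_filter.1 hp).1
      have h1 := hcw p hp'
      have h2 := hξ p hp'
      have h3 := hrr p hp'
      have h4 := hcap p hp'
      have h5 : 0 ≤ Real.log p := Real.log_natCast_nonneg p
      unfold qw
      positivity
    have h2 : 0 ≤ Real.log Y := Real.log_natCast_nonneg Y
    positivity
  HB := by
    intro d M x hd hMM hx hb
    have h1 := HB_P hA hk W hW hcw hξ hrr hcap hF hY1 hY hm (D := 2 * D0) (by linarith) hM hc0 hc2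
      hd hMM hx hb
    have h2 := H599.kl0_nonneg hx
    rw [sum_parP]
    show _ + ∑ p ∈ W, omF ξ rr cap Hh p d (rs (sp x M) p) ≤ kl0 x 1 M / 2 + E1
    linarith

end Vale.Agent.P042.H383
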