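import Vale.Agent.P042.H383.NumP

set_option autoImplicit false

/-!
P042, row D.1: `Ok` in the power regime with numbers.
-/

namespace Vale.Agent.P042.H383

open Finset Polynomial Vale.Agent.P042.SS
open Vale.Agent.P042.H945 (Par Ok)

/-- p-power weights: EI `p^{-g}`, atoms `p^{-g}`, rewards `p^{-gr}`, cap `p^{gc}` -/
noncomputable def pw' (g : ℝ) (p : ℕ) : ℝ := (p : ℝ) ^ (-g)

theorem pw'_nonneg (g : ℝ) (p : ℕ) : 0 ≤ pw' g p := Real.rpow_nonneg (Nat.cast_nonneg _) _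

theorem qw_le {g gr gc : ℝ} (hgr : g + gc ≤ gr) (k : ℕ) {p : ℕ} (hp : 1 ≤ p) :
    qw (pw' g) (pw' g) (pw' gr) (fun p => (p : ℝ) ^ gc) k p ≤ (2 + 2 * k) * (p : ℝ) ^ (-g) := by
  have hp1 : (1 : ℝ) ≤ p := by exact_mod_cast hp
  have h1 : (p : ℝ) ^ (-gr) * (p : ℝ) ^ gc ≤ (p : ℝ) ^ (-g) := by
    rw [← Real.rpow_add (by linarith)]
    exact Real.rpow_le_rpow_of_exponent_le hp1 (by linarith)
  have h2 : (2 * (k : ℝ)) * ((p : ℝ) ^ (-gr) * (p : ℝ) ^ gc) ≤ (2 * k) * (p : ℝ) ^ (-g) :=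
    mul_le_mul_of_nonneg_left h1 (by positivity)
  unfold qw pw'
  linarith

/-- **`Ok` in the power regime**: weights `cw = ξ = p^{-g}`, `rr = p^{-gr}`, `cap = p^{gc}`, cap of
the laws `e^{D0}`, `D0 ≤ c0 P`, error `E1 = P^{1 - g/4}`. -/
theorem ok_power (C1 : ℕ) (hC1 : 1 ≤ C1) (k : ℕ) {g gr gc : ℝ} (hg : 0 < g) (hg1 : g ≤ 1)
    (hgr : g + gc ≤ gr) :
    ∃ c0 : ℝ, 0 < c0 ∧ ∃ P0 : ℝ, ∀ P : ℝ, P0 ≤ P →
      ∀ (h : ℤ[X]) (lam : ℕ → ℕ) (r : ℕ → ℤ) (Hh : ℕ → ℤ[X]) (R : ℕ), AuxData h lam r Hh R →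
      1 ≤ h.natDegree → h.natDegree = k →
      ∀ (W : Finset ℕ), (∀ p ∈ W, p.Prime ∧ R < p ∧ 2 * k ≤ p ∧ (p : ℝ) ≤ P ^ C1) →
      ∀ (F : Fams) (Mm : ℕ), FamsOk F Mm → Real.exp (P / 4) ≤ Mm →
      ∀ (eta D0 : ℝ), 0 < eta → eta ≤ 1 → 0 < D0 → D0 ≤ c0 * P →
      Ok (parP W (pw' g) (pw' g) (pw' gr) (fun p => (p : ℝ) ^ gc) Hh lam F eta D0
        (P ^ (1 - g / 4)) Mm) := by
  obtain ⟨c0, hc0, P0, hP0⟩ := numP C1 hC1 g hg hg1 (2 + 2 * k) (by positivity)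
  refine ⟨c0, hc0, max P0 4, ?_⟩
  intro P hP h lam r Hh R hA hk hkk W hW F Mm hF hMm eta D0 he0 he1 hD hD'
  obtain ⟨Y, y, m, c2, a1, a2, a3, a4, a5, a6, a7⟩ := hP0 P ((le_max_left _ _).trans hP) W
    (qw (pw' g) (pw' g) (pw' gr) (fun p => (p : ℝ) ^ gc) k) D0 Mm
    (fun p hp => ⟨(hW p hp).1.one_le, (hW p hp).2.2.2⟩)
    (fun p hp => qw_le hgr k (hW p hp).1.one_le) hD.le hD' hMm
  have hMm2 : 2 ≤ Mm := by
    have h1 : (1 : ℝ) ≤ P / 4 := by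
      have := (le_max_right P0 4).trans hP
      linarith
    have h2 := Real.add_one_le_exp (P / 4)
    have h3 : (2 : ℝ) ≤ Mm := by linarith
    exact_mod_cast h3
  subst hkk
  exact ok_P hA hk W (fun p hp => ⟨(hW p hp).1, (hW p hp).2.1, (hW p hp).2.2.1⟩)
    (fun p _ => pw'_nonneg g p) (fun p _ => pw'_nonneg g p) (fun p _ => pw'_nonneg gr p)
    (fun p _ => Real.rpow_nonneg (Nat.cast_nonneg _) _) hF hMm2 a1 a2 a3 he0 he1 hD a4 a5 a6 a7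

/-- the numerical conditions of 945's `Mx`: `2 L + 3 E1 < D0 / 8` -/
theorem mx_num {g c : ℝ} (hg : 0 < g) (hc : 0 < c) : ∃ P0 : ℝ, ∀ P : ℝ, P0 ≤ P → ∀ L D0 : ℝ,
    c * P ≤ D0 → L ≤ D0 / 20 →
    2 * L + 3 * P ^ (1 - g / 4) < D0 / 8 ∧ Real.exp (-(D0 / 4)) ≤ 1 / 2 ∧ 4 ≤ D0 := by
  obtain ⟨Pg, hPg⟩ := Filter.eventually_atTop.1
    ((tendsto_rpow_atTop (by positivity : 0 < g / 4)).eventually_gt_atTop (120 / c))
  refine ⟨max (max Pg 1) (4 / c), fun P hP L D0 hD hL => ?_⟩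
  have hP1 : 1 ≤ P := ((le_max_right _ _).trans (le_max_left _ _)).trans hP
  have hPc : 4 / c ≤ P := (le_max_right _ _).trans hP
  have hPg' := hPg P (((le_max_left _ _).trans (le_max_left _ _)).trans hP)
  have hP0 : 0 < P := by linarith
  have h4 : 4 ≤ D0 := by
    rw [div_le_iff₀ hc] at hPc
    linarith
  have h1 : P ^ (1 - g / 4) * P ^ (g / 4) = P := by
    rw [← Real.rpow_add hP0]; simp
  have h2 : 0 < P ^ (1 - g / 4) := Real.rpow_pos_of_pos hP0 _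
  have h3 : 120 * P ^ (1 - g / 4) < c * P := by
    rw [div_lt_iff₀ hc] at hPg'
    have := mul_lt_mul_of_pos_left hPg' h2
    nlinarith
  refine ⟨by linarith, ?_, h4⟩
  have h5 : Real.exp (-(D0 / 4)) ≤ Real.exp (-1) := Real.exp_le_exp.2 (by linarith)
  have h6 : Real.exp (-1) ≤ 1 / 2 := by
    rw [Real.exp_neg, inv_le_comm₀ (Real.exp_pos _) (by norm_num)]
    have := Real.add_one_le_exp (1 : ℝ)
    norm_num
    linarith
  exact h5.trans h6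

end Vale.Agent.P042.H383
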