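import Vale.Agent.P042.H383.RewB
import Vale.Agent.P042.SS.KL2

set_option autoImplicit false

/-!
P042, row D.2: removal of classes at the maximiser (atoms, row sums), the kernel at one prime.
-/

namespace Vale.Agent.P042.H383

open Finset Polynomial Vale.Agent.P042.H74 Vale.Agent.P042.SS Vale.Agent.P042.H954
open Vale.Agent.P042.H599 (cm Law klu)

/-! ### conditioning an integer law -/

section cut

variable (nu : ℕ → ℝ) (A M : ℕ) (E : ℕ → Prop) [DecidablePred E]

/-- mass of the event -/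
noncomputable def mas : ℝ := ∑ i ∈ range M, if E (A + i) then nu (A + i) else 0

/-- conditional law -/
noncomputable def cut (n : ℕ) : ℝ := if E n then nu n / mas nu A M E else 0

variable {nu A M E}

theorem cut_law (h : Law nu A M) (hZ : 0 < mas nu A M E) : Law (cut nu A M E) A M where
  pos := h.pos
  nonneg := fun i hi => by
    unfold cut
    split_ifs
    · exact div_nonneg (h.nonneg i hi) hZ.le
    · exact le_rfl
  sum := by
    have h1 : ∀ i ∈ range M, cut nu A M E (A + i)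
        = (if E (A + i) then nu (A + i) else 0) / mas nu A M E := by
      intro i _
      unfold cut
      split_ifs <;> simp
    rw [sum_congr rfl h1, ← sum_div]
    exact div_self hZ.ne'

theorem cut_kl (h : Law nu A M) (hZ : 0 < mas nu A M E) :
    ∑ i ∈ range M, cut nu A M E (A + i) * Real.log (cut nu A M E (A + i) / nu (A + i))
      = Real.log (mas nu A M E)⁻¹ := by
  have h1 : ∀ i ∈ range M, cut nu A M E (A + i) *
      Real.log (cut nu A M E (A + i) / nu (A + i))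
      = cut nu A M E (A + i) * Real.log (mas nu A M E)⁻¹ := by
    intro i hi
    have h0 := h.nonneg i (mem_range.1 hi)
    unfold cut
    split_ifs with hE
    · rcases h0.eq_or_lt with h2 | h2
      · rw [← h2]; simp
      · congr 2
        field_simp
    · simp
  rw [sum_congr rfl h1, ← sum_mul, (cut_law h hZ).sum, one_mul]

theorem cut_supp (h : Law nu A M) {p : ℕ} {T : Finset ℕ}
    (hE : ∀ n, E n → n % p ∉ T) : supp (cut nu A M E) A M p ⊆ supp nu A M p \ T := by
  intro a ha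
  unfold supp at ha
  rw [mem_filter] at ha
  obtain ⟨h1, h2⟩ := ha
  -- there is a point of the class with positive mass
  have h3 : ∃ i ∈ range M, (if (A + i) % p = a then cut nu A M E (A + i) else 0) ≠ 0 := by
    by_contra h4
    push Not at h4
    exact h2 (sum_eq_zero h4)
  obtain ⟨i, hi, h5⟩ := h3
  have h6 : (A + i) % p = a := by
    by_contra h7
    rw [if_neg h7] at h5
    exact h5 rfl
  rw [if_pos h6] at h5
  have hEi : E (A + i) := by
    by_contra h7
    unfold cut at h5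
    rw [if_neg h7] at h5
    exact h5 rfl
  have hnu : nu (A + i) ≠ 0 := by
    intro h7
    unfold cut at h5
    rw [if_pos hEi, h7, zero_div] at h5
    exact h5 rfl
  rw [mem_sdiff]
  refine ⟨mem_filter.2 ⟨h1, ?_⟩, ?_⟩
  · intro h7
    have h8 : (if (A + i) % p = a then nu (A + i) else 0) ≤ cm nu A M p a := by
      unfold H599.cm
      refine single_le_sum (f := fun j => if (A + j) % p = a then nu (A + j) else 0) ?_ hi
      intro j hj
      show 0 ≤ if (A + j) % p = a then nu (A + j) else 0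
      split_ifs
      · exact h.nonneg j (mem_range.1 hj)
      · exact le_rfl
    rw [if_pos h6, h7] at h8
    have h9 := h.nonneg i (mem_range.1 hi)
    exact hnu (le_antisymm h8 h9)
  · rw [← h6]
    exact hE _ hEi

end cut

/-- the inequality of the maximiser for laws on the good set with bounded relative density
(945 #8950 (MI), `D = 1`, full interval, KL terms dropped) -/
def MaxI (nu : ℕ → ℝ) (A M : ℕ) (G : ℕ → Prop) (K err : ℝ) (W : Finset ℕ)
    (om : ℕ → Finset ℕ → ℝ) : Prop :=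
  ∀ nu' : ℕ → ℝ, Law nu' A M → (∀ n, nu' n ≠ 0 → nu n ≠ 0) →
    (∀ i < M, nu' (A + i) ≠ 0 → G (A + i)) → (∀ i < M, nu' (A + i) ≤ K * nu (A + i)) →
    ∑ q ∈ W, om q (supp nu' A M q) ≤
      (∑ i ∈ range M, nu' (A + i) * Real.log (nu' (A + i) / nu (A + i)))
        + ∑ q ∈ W, om q (supp nu A M q) + err

/-- **removal of classes**: if removing the classes `T` of the prime `p` gains `g`, then they carry
a mass at least `(g - err) / 2 - nu (Gᶜ)` -/
theorem removal {nu : ℕ → ℝ} {A M : ℕ} (h : Law nu A M) {G : ℕ → Prop} [DecidablePred G]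
    {K err : ℝ} (hK : 2 ≤ K) {W : Finset ℕ} {om : ℕ → Finset ℕ → ℝ}
    (hom : ∀ q ∈ W, ∀ S S' : Finset ℕ, S' ⊆ S → om q S ≤ om q S')
    (hMI : MaxI nu A M G K err W om) {p : ℕ} (hp : 0 < p) (hpW : p ∈ W) (T : Finset ℕ) {g : ℝ}
    (hg : om p (supp nu A M p) + g ≤ om p (supp nu A M p \ T)) (hg1 : g - err ≤ 1) :
    (g - err) / 2 ≤ ∑ a ∈ T ∩ range p, cm nu A M p a
      + ∑ i ∈ range M, (if G (A + i) then 0 else nu (A + i)) := by
  classical
  by_contra hcon
  push Not at hcon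
  obtain ⟨E, hEd⟩ : ∃ E : ℕ → Prop, E = fun n => G n ∧ n % p ∉ T := ⟨_, rfl⟩
  set x := ∑ a ∈ T ∩ range p, cm nu A M p a
      + ∑ i ∈ range M, (if G (A + i) then 0 else nu (A + i)) with hx
  have hT : ∑ a ∈ T ∩ range p, cm nu A M p a
      = ∑ i ∈ range M, (if (A + i) % p ∈ T then nu (A + i) else 0) := by
    have h1 := H599.sum_cm_mul nu A M hp (fun a => if a ∈ T then (1:ℝ) else 0)
    have h2 : ∑ a ∈ range p, cm nu A M p a * (if a ∈ T then (1:ℝ) else 0)
        = ∑ a ∈ T ∩ range p, cm nu A M p a := by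
      simp only [mul_ite, mul_one, mul_zero]
      rw [← sum_filter, filter_mem_eq_inter, inter_comm]
    rw [← h2, h1]
    refine sum_congr rfl fun i _ => ?_
    split_ifs <;> simp
  have hZ : 1 - x ≤ mas nu A M E := by
    rw [hx, hT, ← h.sum, ← sum_add_distrib, ← sum_sub_distrib]
    unfold mas
    refine sum_le_sum fun i hi => ?_
    have h0 := h.nonneg i (mem_range.1 hi)
    simp only [hEd]
    by_cases h1 : G (A + i) <;> by_cases h2 : (A + i) % p ∈ T <;> simp [h1, h2, h0]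
  have hx1 : x < 1 / 2 := by linarith
  have hx0 : 0 ≤ x := by
    rw [hx, hT]
    refine add_nonneg (sum_nonneg fun i hi => ?_) (sum_nonneg fun i hi => ?_)
    · split_ifs
      · exact h.nonneg i (mem_range.1 hi)
      · exact le_rfl
    · split_ifs
      · exact le_rfl
      · exact h.nonneg i (mem_range.1 hi)
  have hZ0 : 0 < mas nu A M E := by linarith
  have hlaw := cut_law h hZ0
  have h1 := hMI (cut nu A M E) hlaw
    (fun n h2 h3 => by
      apply h2
      unfold cut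
      rw [h3, zero_div]
      split_ifs <;> rfl)
    (fun i _ h2 => by
      by_contra h3
      apply h2
      unfold cut
      rw [if_neg]
      rw [hEd]
      exact fun h4 => h3 h4.1)
    (fun i hi => by
      have h0 := h.nonneg i hi
      unfold cut
      split_ifs
      · rw [div_le_iff₀ hZ0]
        have h3 : 1 ≤ K * mas nu A M E := by nlinarith
        nlinarith
      · positivity)
  rw [cut_kl h hZ0] at h1
  have hs := cut_supp (E := E) (p := p) (T := T) h (fun n hn => by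
    rw [hEd] at hn
    exact hn.2)
  have hss : ∀ q, supp (cut nu A M E) A M q ⊆ supp nu A M q := by
    intro q
    have := cut_supp (E := E) (p := q) (T := ∅) h (fun n _ => by simp)
    simpa using this
  have h2 : om p (supp nu A M p) + g ≤ om p (supp (cut nu A M E) A M p) :=
    hg.trans (hom p hpW _ _ hs)
  have h3 : ∑ q ∈ W, om q (supp nu A M q) + g ≤ ∑ q ∈ W, om q (supp (cut nu A M E) A M q) := by
    rw [← add_sum_erase W _ hpW, ← add_sum_erase W (fun q => om q (supp (cut nu A M E) A M q)) hpW]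
    have h4 : ∑ q ∈ W.erase p, om q (supp nu A M q)
        ≤ ∑ q ∈ W.erase p, om q (supp (cut nu A M E) A M q) :=
      sum_le_sum fun q hq => hom q (mem_of_mem_erase hq) _ _ (hss q)
    linarith
  have h4 : Real.log (mas nu A M E)⁻¹ ≤ (mas nu A M E)⁻¹ - 1 :=
    Real.log_le_sub_one_of_pos (inv_pos.2 hZ0)
  have h5 : (mas nu A M E)⁻¹ ≤ 1 + 2 * x := by
    rw [inv_le_comm₀ hZ0 (by linarith)]
    refine le_trans ?_ hZ
    rw [inv_le_iff_one_le_mul₀ (by linarith)]
    nlinarith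
  linarith

/-! ### gains of the functional -/

section gain

variable {ξ r cap : ℝ} {f : ℤ[X]} {p : ℕ} {S : Finset ℕ}

theorem gain_atom (hr : 0 ≤ r) (hS : S ⊆ range p) {a : ℕ} (ha : a ∈ S) :
    omg ξ r cap f p S + ξ / p ≤ omg ξ r cap f p (S \ {a}) := by
  have h1 := (miss_anti (f := f) (p := p) (S := S) (S' := S \ {a}) sdiff_subset).1
  have h2 : (((range p) \ (S \ {a})).card : ℝ) = ((range p) \ S).card + 1 := by
    have e1 : (((range p) \ (S \ {a})).card : ℝ) = p - (S \ {a}).card := by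
      rw [cast_card_sdiff (sdiff_subset.trans hS), card_range]
    have e2 : (((range p) \ S).card : ℝ) = p - S.card := by
      rw [cast_card_sdiff hS, card_range]
    have e3 : ((S \ {a}).card : ℝ) = S.card - 1 := by
      rw [cast_card_sdiff (singleton_subset_iff.2 ha), card_singleton]
      simp
    rw [e1, e2, e3]
    ring
  unfold omg
  rw [h2]
  have h3 : (miss f p S : ℝ) ≤ miss f p (S \ {a}) := by exact_mod_cast h1
  have h4 : r * min (miss f p S : ℝ) cap ≤ r * min (miss f p (S \ {a}) : ℝ) cap :=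
    mul_le_mul_of_nonneg_left (min_le_min h3 le_rfl) hr
  have h5 : ξ * ((((range p) \ S).card : ℝ) + 1) / p = ξ * (((range p) \ S).card : ℝ) / p + ξ / p := by
    ring
  rw [h5]
  linarith

theorem gain_of_miss (hξ : 0 ≤ ξ) (hr : 0 ≤ r) {T : Finset ℕ}
    (hcap : (miss f p S : ℝ) + 1 ≤ cap) (hm : miss f p S + 1 ≤ miss f p (S \ T)) :
    omg ξ r cap f p S + r ≤ omg ξ r cap f p (S \ T) := by
  have h2 := (miss_anti (f := f) (p := p) (S := S) (S' := S \ T) sdiff_subset).2
  have h2' : (((range p) \ S).card : ℝ) ≤ ((range p) \ (S \ T)).card := by exact_mod_cast h2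
  have h3 : (miss f p S : ℝ) + 1 ≤ miss f p (S \ T) := by exact_mod_cast hm
  have h4 : ξ * (((range p) \ S).card : ℝ) / p ≤ ξ * (((range p) \ (S \ T)).card : ℝ) / p := by
    gcongr
  have h5 : min (miss f p S : ℝ) cap + 1 ≤ min (miss f p (S \ T) : ℝ) cap := by
    rw [min_eq_left (by linarith)]
    exact le_min h3 hcap
  have h6 := mul_le_mul_of_nonneg_left h5 hr
  unfold omg
  linarith

theorem mem_nbA {a b : ℕ} : b ∈ nbA f p a ↔ b < p ∧ (b = a ∨ edge f p a b) := by
  classical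
  unfold nbA
  rw [mem_filter, mem_range]

theorem mem_nbB {a b : ℕ} : b ∈ nbB f p a ↔ b < p ∧ (b = a ∨ edge f p b a) := by
  classical
  unfold nbB
  rw [mem_filter, mem_range]

theorem miss_nbA (hS : S ⊆ range p) {a : ℕ} (ha : a ∈ S) :
    miss f p S + 1 ≤ miss f p (S \ nbA f p a) := by
  have h1 : insert a (missA f p S) ⊆ missA f p (S \ nbA f p a) := by
    intro b hb
    rw [mem_missA]
    rcases mem_insert.1 hb with rfl | hb
    · refine ⟨mem_range.1 (hS ha), fun c hc => ?_⟩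
      obtain ⟨h2, h3⟩ := mem_sdiff.1 hc
      rw [mem_nbA] at h3
      push Not at h3
      exact h3 (mem_range.1 (hS h2))
    · obtain ⟨h2, h3⟩ := mem_missA.1 hb
      exact ⟨h2, fun c hc => h3 c (mem_sdiff.1 hc).1⟩
  have h2 : a ∉ missA f p S := fun h => ((mem_missA.1 h).2 a ha).1 rfl
  have h3 := card_le_card h1
  rw [card_insert_of_notMem h2] at h3
  have h4 : missB f p S ⊆ missB f p (S \ nbA f p a) := by
    intro b hb
    rw [mem_missB] at hb ⊢
    exact ⟨hb.1, fun c hc => hb.2 c (mem_sdiff.1 hc).1⟩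
  have h5 := card_le_card h4
  unfold miss
  omega

theorem miss_nbB (hS : S ⊆ range p) {a : ℕ} (ha : a ∈ S) :
    miss f p S + 1 ≤ miss f p (S \ nbB f p a) := by
  have h1 : insert a (missB f p S) ⊆ missB f p (S \ nbB f p a) := by
    intro b hb
    rw [mem_missB]
    rcases mem_insert.1 hb with rfl | hb
    · refine ⟨mem_range.1 (hS ha), fun c hc => ?_⟩
      obtain ⟨h2, h3⟩ := mem_sdiff.1 hc
      rw [mem_nbB] at h3
      push Not at h3
      exact h3 (mem_range.1 (hS h2))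
    · obtain ⟨h2, h3⟩ := mem_missB.1 hb
      exact ⟨h2, fun c hc => h3 c (mem_sdiff.1 hc).1⟩
  have h2 : a ∉ missB f p S := fun h => ((mem_missB.1 h).2 a ha).1 rfl
  have h3 := card_le_card h1
  rw [card_insert_of_notMem h2] at h3
  have h4 : missA f p S ⊆ missA f p (S \ nbB f p a) := by
    intro b hb
    rw [mem_missA] at hb ⊢
    exact ⟨hb.1, fun c hc => hb.2 c (mem_sdiff.1 hc).1⟩
  have h5 := card_le_card h4
  unfold miss
  omega

end gain

/-! ### atoms and rows at the maximiser -/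

section rows

variable {nu : ℕ → ℝ} {A M : ℕ} {G : ℕ → Prop} [DecidablePred G] {K err : ℝ} {W : Finset ℕ}
  {ξ r cap : ℕ → ℝ} {f : ℤ[X]}

/-- **small atoms do not occur** -/
theorem atoms (h : Law nu A M) (hK : 2 ≤ K) (hξ : ∀ q ∈ W, 0 ≤ ξ q) (hr : ∀ q ∈ W, 0 ≤ r q)
    (hMI : MaxI nu A M G K err W (fun q => omg (ξ q) (r q) (cap q) f q))
    {p : ℕ} (hp : 0 < p) (hpW : p ∈ W) (hξ1 : ξ p / p - err ≤ 1)
    (herr : err / 2 + ∑ i ∈ range M, (if G (A + i) then 0 else nu (A + i)) ≤ ξ p / p / 6)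
    {a : ℕ} (ha : a < p) (h0 : cm nu A M p a ≠ 0) : ξ p / (3 * p) ≤ cm nu A M p a := by
  have haS : a ∈ supp nu A M p := mem_filter.2 ⟨mem_range.2 ha, h0⟩
  have h1 := removal h hK (om := fun q => omg (ξ q) (r q) (cap q) f q)
    (fun q hq S S' hSS => omg_anti (hξ q hq) (hr q hq) hSS) hMI hp hpW {a} (g := ξ p / p)
    (gain_atom (hr p hpW) (supp_subset nu A M p) haS) hξ1
  have h2 : ({a} : Finset ℕ) ∩ range p = {a} :=
    inter_eq_left.2 (singleton_subset_iff.2 (mem_range.2 ha))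
  rw [h2, sum_singleton] at h1
  have h3 : ξ p / (3 * p) = ξ p / p / 3 := by
    rw [mul_comm, ← div_div]
  rw [h3]
  linarith

/-- mass of the forward and backward neighbourhoods -/
theorem rows_aux (h : Law nu A M) (hK : 2 ≤ K) (hξ : ∀ q ∈ W, 0 ≤ ξ q) (hr : ∀ q ∈ W, 0 ≤ r q)
    (hMI : MaxI nu A M G K err W (fun q => omg (ξ q) (r q) (cap q) f q))
    {p : ℕ} (hp : 0 < p) (hpW : p ∈ W) (hr1 : r p - err ≤ 1)
    (herr : err / 2 + ∑ i ∈ range M, (if G (A + i) then 0 else nu (A + i)) ≤ r p / 8)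
    (hcap : (miss f p (supp nu A M p) : ℝ) + 1 ≤ cap p)
    {a : ℕ} (ha : a < p) (h0 : cm nu A M p a ≠ 0) :
    3 * r p / 8 ≤ ∑ b ∈ nbA f p a, cm nu A M p b ∧
      3 * r p / 8 ≤ ∑ b ∈ nbB f p a, cm nu A M p b := by
  have haS : a ∈ supp nu A M p := mem_filter.2 ⟨mem_range.2 ha, h0⟩
  have hS := supp_subset nu A M p
  constructor
  · have h1 := removal h hK (om := fun q => omg (ξ q) (r q) (cap q) f q)
      (fun q hq S S' hSS => omg_anti (hξ q hq) (hr q hq) hSS) hMI hp hpW (nbA f p a) (g := r p)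
      (gain_of_miss (hξ p hpW) (hr p hpW) hcap (miss_nbA hS haS)) hr1
    rw [inter_eq_left.2 fun b hb => mem_range.2 (mem_nbA.1 hb).1] at h1
    linarith
  · have h1 := removal h hK (om := fun q => omg (ξ q) (r q) (cap q) f q)
      (fun q hq S S' hSS => omg_anti (hξ q hq) (hr q hq) hSS) hMI hp hpW (nbB f p a) (g := r p)
      (gain_of_miss (hξ p hpW) (hr p hpW) hcap (miss_nbB hS haS)) hr1
    rw [inter_eq_left.2 fun b hb => mem_range.2 (mem_nbB.1 hb).1] at h1
    linarith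

theorem row_of_nb (h : Law nu A M) {p : ℕ} (N : Finset ℕ)
    (hN : N ⊆ range p) {a : ℕ} (k : ℕ → ℝ) (hk : ∀ b, -1 ≤ k b)
    (hk0 : ∀ b ∈ N, b ≠ a → 0 ≤ k b) {s t : ℝ}
    (hs : s ≤ ∑ b ∈ N, cm nu A M p b) (ht : cm nu A M p a ≤ t) :
    s - t ≤ ∑ b ∈ range p, cm nu A M p b * (1 + k b) := by
  have hc := H599.cm_nonneg h.nonneg p
  have h1 : ∑ b ∈ N, cm nu A M p b ≤ ∑ b ∈ N, cm nu A M p b * (1 + k b) + cm nu A M p a := by
    by_cases haN : a ∈ N
    · rw [← add_sum_erase N _ haN, ← add_sum_erase N (fun b => cm nu A M p b * (1 + k b)) haN]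
      have h2 : ∑ b ∈ N.erase a, cm nu A M p b ≤ ∑ b ∈ N.erase a, cm nu A M p b * (1 + k b) := by
        refine sum_le_sum fun b hb => ?_
        have h3 := hk0 b (mem_of_mem_erase hb) (ne_of_mem_erase hb)
        have h4 := hc b
        nlinarith
      have h5 : 0 ≤ cm nu A M p a * (1 + k a) :=
        mul_nonneg (hc a) (by linarith [hk a])
      linarith
    · have h2 : ∑ b ∈ N, cm nu A M p b ≤ ∑ b ∈ N, cm nu A M p b * (1 + k b) := by
        refine sum_le_sum fun b hb => ?_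
        have h3 := hk0 b hb (fun e => haN (e ▸ hb))
        have h4 := hc b
        nlinarith
      linarith [hc a]
  have h2 : ∑ b ∈ N, cm nu A M p b * (1 + k b) ≤ ∑ b ∈ range p, cm nu A M p b * (1 + k b) :=
    sum_le_sum_of_subset_of_nonneg hN fun b _ _ => mul_nonneg (hc b) (by linarith [hk b])
  linarith

/-- **row and column sums at the maximiser** -/
theorem rows (h : Law nu A M) (hK : 2 ≤ K) (hξ : ∀ q ∈ W, 0 ≤ ξ q) (hr : ∀ q ∈ W, 0 ≤ r q)
    (hMI : MaxI nu A M G K err W (fun q => omg (ξ q) (r q) (cap q) f q))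
    {p : ℕ} (hp : 0 < p) (hpW : p ∈ W) (hd : 0 < dns f p) (hr1 : r p - err ≤ 1)
    (herr : err / 2 + ∑ i ∈ range M, (if G (A + i) then 0 else nu (A + i)) ≤ r p / 8)
    (hcap : (miss f p (supp nu A M p) : ℝ) + 1 ≤ cap p)
    (hat : ∀ a, cm nu A M p a ≤ r p / 8) {a : ℕ} (ha : a < p) (h0 : cm nu A M p a ≠ 0) :
    r p / 4 ≤ ∑ b ∈ range p, cm nu A M p b * (1 + kN f p ((a : ℤ) - b)) ∧
      r p / 4 ≤ ∑ b ∈ range p, cm nu A M p b * (1 + kN f p ((b : ℤ) - a)) := by
  obtain ⟨h1, h2⟩ := rows_aux h hK hξ hr hMI hp hpW hr1 herr hcap ha h0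
  constructor
  · have h3 := row_of_nb h (nbA f p a) (fun b hb => mem_range.2 (mem_nbA.1 hb).1) (a := a)
      (fun b => kN f p ((a : ℤ) - b)) (fun b => neg_one_le_kN f p _)
      (fun b hb hba => kN_of_edge hp hd ((mem_nbA.1 hb).2.resolve_left hba)) h1 (hat a)
    linarith
  · have h3 := row_of_nb h (nbB f p a) (fun b hb => mem_range.2 (mem_nbB.1 hb).1) (a := a)
      (fun b => kN f p ((b : ℤ) - a)) (fun b => neg_one_le_kN f p _)
      (fun b hb hba => kN_of_edge hp hd ((mem_nbB.1 hb).2.resolve_left hba)) h2 (hat a)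
    linarith

/-- `χ²` of the classes mod `p` is bounded by the relative entropy -/
theorem chi_le_klu (h : Law nu A M) {p : ℕ} (hp : 0 < p) {D : ℝ} (hD1 : 1 ≤ D)
    (hD : ∀ a, p * cm nu A M p a ≤ D) :
    ∑ a ∈ range p, (p : ℝ)⁻¹ * (p * cm nu A M p a - 1) ^ 2 ≤ 2 * D * klu nu A M p := by
  have hp0 : (0:ℝ) < p := by exact_mod_cast hp
  have h1 : ∀ a ∈ range p, (p : ℝ)⁻¹ * (p * cm nu A M p a - 1) ^ 2 ≤
      2 * D * (cm nu A M p a * Real.log (p * cm nu A M p a) - cm nu A M p a + (p : ℝ)⁻¹) := by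
    intro a _
    have h2 := KL2.ent_pt (P := p * cm nu A M p a) (Q := 1) (K := D)
      (mul_nonneg hp0.le (H599.cm_nonneg h.nonneg p a)) zero_le_one (hD a) hD1
      (fun h3 => absurd h3 one_ne_zero)
    rw [div_one] at h2
    have h3 := mul_le_mul_of_nonneg_left h2 (inv_pos.2 hp0).le
    refine h3.trans (le_of_eq ?_)
    field_simp
  refine (sum_le_sum h1).trans (le_of_eq ?_)
  rw [← mul_sum, sum_add_distrib, sum_sub_distrib, H599.sum_cm h.sum hp, sum_const, card_range,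
    nsmul_eq_mul, mul_inv_cancel₀ hp0.ne']
  unfold klu
  ring

/-- **the hypotheses of 954's one-body step at one prime, from the maximiser** -/
theorem kd_of_rows (h : Law nu A M) {PP : Finset ℕ} (hPP : NS f PP) {p : ℕ} (hpP : p ∈ PP)
    {ρ D s : ℝ} (hρ : 0 ≤ ρ) (hρ1 : ρ ≤ 1)
    (hG : ∀ a : ℤ, IsCoprime a (p : ℤ) → ‖GamN f PP a p‖ ≤ ρ)
    (hD1 : 1 ≤ D) (hD : ∀ a, p * cm nu A M p a ≤ D) (hs : 0 < s) (hs1 : s ≤ 1)
    (hrow : ∀ a < p, cm nu A M p a ≠ 0 →
      s ≤ ∑ b ∈ range p, cm nu A M p b * (1 + kN f p ((a : ℤ) - b)) ∧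
      s ≤ ∑ b ∈ range p, cm nu A M p b * (1 + kN f p ((b : ℤ) - a)))
    (hsmall : 16 * ρ * D ^ 3 * klu nu A M p ≤ s ^ 2)
    {X Y : Type*} [Fintype X] [Fintype Y] {v : X → ℕ} {w : Y → ℕ} (hX : Rs X p v)
    (hY : Rs Y p w) (hv : ∀ x, v x < p) (hw : ∀ y, w y < p) :
    KD (fun _ : X => (Fintype.card X : ℝ)⁻¹) (fun _ : Y => (Fintype.card Y : ℝ)⁻¹)
      (fun x => cm nu A M p (v x)) (fun y => cm nu A M p (w y))
      (fun x y => kN f p ((v x : ℤ) - w y)) ρ D s √(2 * D * klu nu A M p) where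
  hu := fun _ => inv_nonneg.2 (Nat.cast_nonneg _)
  hu' := fun _ => inv_nonneg.2 (Nat.cast_nonneg _)
  hν := fun _ => H599.cm_nonneg h.nonneg p _
  hν' := fun _ => H599.cm_nonneg h.nonneg p _
  su := by
    have hp0 : (0:ℝ) < p := by exact_mod_cast (hPP p hpP).1.pos
    rw [sum_const, card_univ, nsmul_eq_mul, mul_inv_cancel₀]
    rw [hX.card]; exact hp0.ne'
  su' := by
    have hp0 : (0:ℝ) < p := by exact_mod_cast (hPP p hpP).1.pos
    rw [sum_const, card_univ, nsmul_eq_mul, mul_inv_cancel₀]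
    rw [hY.card]; exact hp0.ne'
  sν := by
    rw [hX.sum fun i => cm nu A M p i]
    exact H599.sum_cm h.sum (hPP p hpP).1.pos
  sν' := by
    rw [hY.sum fun i => cm nu A M p i]
    exact H599.sum_cm h.sum (hPP p hpP).1.pos
  dν := fun x => by
    have hp0 : (0:ℝ) < p := by exact_mod_cast (hPP p hpP).1.pos
    rw [hX.card, ← div_eq_mul_inv, le_div_iff₀ hp0, mul_comm]
    exact hD _
  dν' := fun y => by
    have hp0 : (0:ℝ) < p := by exact_mod_cast (hPP p hpP).1.pos
    rw [hY.card, ← div_eq_mul_inv, le_div_iff₀ hp0, mul_comm]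
    exact hD _
  ck := fun x => by
    rw [← mul_sum, hY.sum fun j => kN f p ((v x : ℤ) - j),
      sum_kN_sub (hPP p hpP).1 (hPP p hpP).2 _, mul_zero]
  ck' := fun y => by
    rw [← mul_sum, hX.sum fun j => kN f p ((j : ℤ) - w y),
      sum_kN_sub' (hPP p hpP).1 (hPP p hpP).2 _, mul_zero]
  op := kN_op hPP hpP hρ hG hX hY
  hH := by
    have hp0 : (0:ℝ) < p := by exact_mod_cast (hPP p hpP).1.pos
    unfold nm
    apply Real.sqrt_le_sqrt
    refine le_trans (le_of_eq ?_) (chi_le_klu h (hPP p hpP).1.pos hD1 hD)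
    rw [hX.card, ← hX.sum fun i => (p : ℝ)⁻¹ * (p * cm nu A M p i - 1) ^ 2]
    refine sum_congr rfl fun x _ => ?_
    show (p : ℝ)⁻¹ * (cm nu A M p (v x) / (p : ℝ)⁻¹ - 1) ^ 2 = _
    rw [div_inv_eq_mul, mul_comm (cm nu A M p (v x))]
  hH' := by
    have hp0 : (0:ℝ) < p := by exact_mod_cast (hPP p hpP).1.pos
    unfold nm
    apply Real.sqrt_le_sqrt
    refine le_trans (le_of_eq ?_) (chi_le_klu h (hPP p hpP).1.pos hD1 hD)
    rw [hY.card, ← hY.sum fun i => (p : ℝ)⁻¹ * (p * cm nu A M p i - 1) ^ 2]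
    refine sum_congr rfl fun y _ => ?_
    show (p : ℝ)⁻¹ * (cm nu A M p (w y) / (p : ℝ)⁻¹ - 1) ^ 2 = _
    rw [div_inv_eq_mul, mul_comm (cm nu A M p (w y))]
  row := fun x hx => by
    rw [hY.sum fun b => cm nu A M p b * (1 + kN f p ((v x : ℤ) - b))]
    exact (hrow (v x) (hv x) hx).1
  row' := fun y hy => by
    rw [hX.sum fun b => cm nu A M p b * (1 + kN f p ((b : ℤ) - w y))]
    exact (hrow (w y) (hw y) hy).2
  r0 := hs
  r1 := hs1
  D1 := hD1
  ρ0 := hρ
  ρ1 := hρ1
  H0 := Real.sqrt_nonneg _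
  small := by
    have h0 : 0 ≤ klu nu A M p := by
      have hp0 : (0:ℝ) < p := by exact_mod_cast (hPP p hpP).1.pos
      exact le_trans (by positivity) (klu_ge h (hPP p hpP).1.pos)
    rw [Real.sq_sqrt (by positivity)]
    refine le_trans (le_of_eq ?_) hsmall
    ring

/-- **one prime of the extremal state: from the inequality of the maximiser and the sup bound to
954's one-body data.** -/
theorem kd_of_state (h : Law nu A M) (hK : 2 ≤ K) (hξ : ∀ q ∈ W, 0 ≤ ξ q) (hr : ∀ q ∈ W, 0 ≤ r q)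
    (hMI : MaxI nu A M G K err W (fun q => omg (ξ q) (r q) (cap q) f q))
    {PP : Finset ℕ} (hPP : NS f PP) {p : ℕ} (hpW : p ∈ W) (hpP : p ∈ PP)
    {ρ D : ℝ} (hρ : 0 ≤ ρ) (hρ1 : ρ ≤ 1)
    (hG : ∀ a : ℤ, IsCoprime a (p : ℤ) → ‖GamN f PP a p‖ ≤ ρ)
    (hD1 : 1 ≤ D) (hD : ∀ a, p * cm nu A M p a ≤ D)
    (hr0 : 0 < r p) (hr1 : r p ≤ 1) (herr0 : 0 ≤ err)
    (herr : err / 2 + ∑ i ∈ range M, (if G (A + i) then 0 else nu (A + i)) ≤ r p / 8)
    (hcap : 2 * ρ ^ 2 * p * D + 1 ≤ cap p) (hat : 8 * D ≤ r p * p)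
    (hsmall : 256 * ρ * D ^ 3 * klu nu A M p ≤ r p ^ 2)
    {X Y : Type*} [Fintype X] [Fintype Y] {v : X → ℕ} {w : Y → ℕ} (hX : Rs X p v)
    (hY : Rs Y p w) (hv : ∀ x, v x < p) (hw : ∀ y, w y < p) :
    KD (fun _ : X => (Fintype.card X : ℝ)⁻¹) (fun _ : Y => (Fintype.card Y : ℝ)⁻¹)
      (fun x => cm nu A M p (v x)) (fun y => cm nu A M p (w y))
      (fun x y => kN f p ((v x : ℤ) - w y)) ρ D (r p / 4) √(2 * D * klu nu A M p) := by
  have hp := (hPP p hpP).1
  have hp0 : (0:ℝ) < p := by exact_mod_cast hp.pos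
  refine kd_of_rows h hPP hpP hρ hρ1 hG hD1 hD (by linarith) (by linarith) (fun a ha h0 =>
    rows h hK hξ hr hMI hp.pos hpW (hPP p hpP).2 (by linarith) herr ?_ ?_ ha h0) ?_ hX hY hv hw
  · exact le_trans (by linarith [miss_le hPP hpP hρ hG h hD]) hcap
  · intro a
    have h1 := hD a
    rw [le_div_iff₀ (by norm_num)]
    have h2 : (p : ℝ) * (cm nu A M p a * 8) ≤ p * r p := by nlinarith
    exact le_of_mul_le_mul_left h2 hp0
  · have : (r p / 4) ^ 2 = r p ^ 2 / 16 := by ring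
    rw [this, le_div_iff₀ (by norm_num)]
    linarith

end rows

end Vale.Agent.P042.H383
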