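import Vale.Agent.P042.H383.RewR
import Vale.Agent.P042.H383.NumP
import Vale.Agent.P042.H945.State6

set_option autoImplicit false

/-!
P042, row D.2: the rewards at the maximiser of 945's functional, power regime.
-/

namespace Vale.Agent.P042.H383

open Finset Polynomial Vale.Agent.P042.H74 Vale.Agent.P042.SS Vale.Agent.P042.H954
open Vale.Agent.P042.H945 (Par Ok Om sp rs Mx Comp Omc SC KC Err kl2 klc SM AC)
open Vale.Agent.P042.H599 (cm Law klu kl0)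

/-- **945's master inequality gives the inequality `MaxI`** -/
theorem maxI_of_master {ι : Type} {Q : Par ι} {N d M : ℕ} {A0 : Finset ℤ} {a : ℤ} {x : ℕ → ℝ}
    {L : ℝ} (hm : Mx Q N A0 d a M x L) (h2 : 2 * Q.Mm ≤ M) {OB : ℝ}
    (hOB : ∀ S, Om Q d S ≤ OB) {K : ℝ} (hK1 : 1 ≤ K) (hK : K ≤ Real.exp (Q.D0 / 4)) :
    MaxI x 1 M (fun n => M * x n ≤ Real.exp (Q.D0 / 2)) K (Err Q M L OB K (1 / M)) Q.W
      (fun p S => Q.om p d S) := by
  intro y hy hac hG hKx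
  have hQ := hm.ok
  have hA := hm.mx.1
  have hM : 0 < M := hA.law.pos
  have hMr : (0 : ℝ) < M := by exact_mod_cast hM
  have hnn : ∀ n, 0 ≤ x n := fun n => H945.law_nonneg hA n
  have hyle : ∀ n, y n ≤ K * x n := by
    intro n
    rcases eq_or_ne (y n) 0 with h0 | h0
    · rw [h0]; exact mul_nonneg (by linarith) (hnn n)
    · have h1 := hA.supp n (hac n h0)
      have h3 := hKx (n - 1) (by omega)
      rwa [show 1 + (n - 1) = n by omega] at h3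
  have hcomp : Comp Q M x 1 0 1 M y := by
    refine ⟨le_rfl, le_rfl, le_rfl, ?_, hy, ?_, ?_⟩
    · rw [hQ.lam1]; omega
    · intro n hn
      have h1 := hA.supp n (hac n hn)
      exact ⟨hac n hn, h1.1, h1.2.1, Nat.mod_one n⟩
    · intro n
      have e1 : ((M + 1 - 1 : ℕ) : ℝ) = M := by rw [Nat.add_sub_cancel]
      rw [e1, le_div_iff₀ hMr, Nat.cast_one, mul_one]
      rcases eq_or_ne (y n) 0 with h0 | h0
      · rw [h0, zero_mul]; exact (Real.exp_pos _).le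
      · have h1 := hA.supp n (hac n h0)
        have h3 := hG (n - 1) (by omega) (by rwa [show 1 + (n - 1) = n by omega])
        rw [show 1 + (n - 1) = n by omega] at h3
        calc y n * M ≤ (K * x n) * M := mul_le_mul_of_nonneg_right (hyle n) hMr.le
          _ = K * (M * x n) := by ring
          _ ≤ Real.exp (Q.D0 / 4) * Real.exp (Q.D0 / 2) :=
              mul_le_mul hK h3 (mul_nonneg hMr.le (hnn n)) (Real.exp_pos _).le
          _ = Real.exp (3 / 4 * Q.D0) := by rw [← Real.exp_add]; congr 1; ring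
  have h := H945.master hm hcomp hK1 hyle hOB Q.m
    (fun i hi => ⟨hQ.hm i hi, dvd_rfl, Nat.coprime_one_right _⟩)
  have e1 : ((M + 1 - 1 : ℕ) : ℝ) = M := by rw [Nat.add_sub_cancel]
  rw [e1, hQ.lam1] at h
  have hSC : SC Q M x Q.m y = 0 := by
    unfold SC
    refine sum_eq_zero fun i _ => ?_
    unfold SM
    simp
  have hKC : 0 ≤ KC Q M x Q.m y := by
    unfold KC
    refine sum_nonneg fun i hi => mul_nonneg (hQ.hc i hi) ?_
    exact H945.klc_nonneg hy hA.law hcomp.ac (hQ.hm i hi)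
  have hOmc : Omc Q d 1 M y = ∑ p ∈ Q.W, Q.om p d (supp y 1 M p) := by
    unfold Omc
    rw [filter_true_of_mem fun p _ => Nat.coprime_one_right p]
    exact sum_congr rfl fun p hp => by rw [rs_sp hy (hQ.hW p hp)]
  have hOm : Om Q d (sp x M) = ∑ p ∈ Q.W, Q.om p d (supp x 1 M p) := by
    unfold Om
    exact sum_congr rfl fun p hp => by rw [rs_sp hA.law (hQ.hW p hp)]
  have hkl : kl2 y x M = ∑ i ∈ range M, y (1 + i) * Real.log (y (1 + i) / x (1 + i)) := by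
    unfold kl2 SM
    refine sum_congr rfl fun i _ => ?_
    rcases eq_or_ne (y (1 + i)) 0 with h0 | h0
    · simp only [h0, zero_mul]
    · rw [Real.log_div h0 (hac _ h0)]
  rw [hSC, hOmc, hOm, hkl] at h
  simp only [sub_self, mul_zero, Nat.cast_one, Real.log_one, zero_add, add_zero] at h
  show ∑ q ∈ Q.W, Q.om q d (supp y 1 M q) ≤ _
  linarith

/-- constant bound of the support terms -/
theorem omF_bound {W : Finset ℕ} {cw ξ rr cap : ℕ → ℝ} {Hh : ℕ → ℤ[X]} {lam : ℕ → ℕ} {F : Fams}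
    {eta D0 E1 : ℝ} {Mm : ℕ} (hξ : ∀ p ∈ W, 0 ≤ ξ p) (hrr : ∀ p ∈ W, 0 ≤ rr p) (d : ℕ)
    (S : Finset ℕ) :
    Om (parP W cw ξ rr cap Hh lam F eta D0 E1 Mm) d S ≤ ∑ p ∈ W, (ξ p + rr p * cap p) := by
  unfold Om
  exact sum_le_sum fun p hp => omg_le_const (hξ p hp) (hrr p hp) _ _ _

/-- the inequality `MaxI` for the functional `omg` -/
theorem maxI_power {W : Finset ℕ} {cw ξ rr cap : ℕ → ℝ} {Hh : ℕ → ℤ[X]} {lam : ℕ → ℕ} {F : Fams}
    {eta D0 E1 : ℝ} {Mm : ℕ} (hξ : ∀ p ∈ W, 0 ≤ ξ p) (hrr : ∀ p ∈ W, 0 ≤ rr p)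
    {N d M : ℕ} {A0 : Finset ℤ} {a : ℤ} {x : ℕ → ℝ} {L : ℝ}
    (hm : Mx (parP W cw ξ rr cap Hh lam F eta D0 E1 Mm) N A0 d a M x L) (h2 : 2 * Mm ≤ M)
    (hD : 4 ≤ D0) :
    MaxI x 1 M (fun n => M * x n ≤ Real.exp (D0 / 2)) 2
      (Err (parP W cw ξ rr cap Hh lam F eta D0 E1 Mm) M L (∑ p ∈ W, (ξ p + rr p * cap p)) 2
        (1 / M)) W (fun p => omg (ξ p) (rr p) (cap p) (Hh d) p) := by
  have hK : (2 : ℝ) ≤ Real.exp (D0 / 4) := by
    have h1 := Real.add_one_le_exp (D0 / 4)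
    linarith
  have h := maxI_of_master hm h2 (omF_bound hξ hrr d) (by norm_num : (1:ℝ) ≤ 2) hK
  intro y hy hac hG hKx
  have h1 := h y hy hac hG hKx
  have e : ∀ z : ℕ → ℝ, ∑ q ∈ W, omF ξ rr cap Hh q d (supp z 1 M q)
      = ∑ q ∈ W, omg (ξ q) (rr q) (cap q) (Hh d) q (supp z 1 M q) := by
    intro z
    refine sum_congr rfl fun q _ => ?_
    unfold omF
    rw [inter_eq_left.2 (supp_subset z 1 M q)]
  have h3 : ∑ q ∈ W, omF ξ rr cap Hh q d (supp y 1 M q) ≤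
      (∑ i ∈ range M, y (1 + i) * Real.log (y (1 + i) / x (1 + i))) +
        ∑ q ∈ W, omF ξ rr cap Hh q d (supp x 1 M q) + _ := h1
  rw [e y, e x] at h3
  exact h3

/-- **one prime at the maximiser of 945's functional (power regime)**: 954's one-body data. -/
theorem kd_power {h : ℤ[X]} {lam : ℕ → ℕ} {r : ℕ → ℤ} {Hh : ℕ → ℤ[X]} {R : ℕ}
    (hA : AuxData h lam r Hh R) (hk : 1 ≤ h.natDegree)
    {W : Finset ℕ} (hW : ∀ p ∈ W, p.Prime ∧ R < p ∧ 2 * h.natDegree ≤ p)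
    {cw ξ rr cap : ℕ → ℝ} {F : Fams} {eta D0 E1 : ℝ} {Mm : ℕ}
    (hξ : ∀ p ∈ W, 0 ≤ ξ p) (hrr : ∀ p ∈ W, 0 ≤ rr p)
    {N d M : ℕ} {A0 : Finset ℤ} {a : ℤ} {x : ℕ → ℝ} {L : ℝ}
    (hm : Mx (parP W cw ξ rr cap Hh lam F eta D0 E1 Mm) N A0 d a M x L) (h2 : 2 * Mm ≤ M)
    (hD : 4 ≤ D0) {PP : Finset ℕ} (hPP : NS (Hh d) PP) {p : ℕ} (hpW : p ∈ W) (hpP : p ∈ PP)
    (hG : ∀ b : ℤ, IsCoprime b (p : ℤ) → ‖Gam (Hh d) b p‖ ≤ h.natDegree / √(p : ℝ))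
    (hp16 : 16 * (h.natDegree : ℝ) ^ 2 ≤ p) {Dp : ℝ} (hD1 : 1 ≤ Dp)
    (hDp : ∀ b, p * cm x 1 M p b ≤ Dp) (hr0 : 0 < rr p) (hr1 : rr p ≤ 1)
    (herr0 : 0 ≤ Err (parP W cw ξ rr cap Hh lam F eta D0 E1 Mm) M L
      (∑ p ∈ W, (ξ p + rr p * cap p)) 2 (1 / M))
    (herr : Err (parP W cw ξ rr cap Hh lam F eta D0 E1 Mm) M L
      (∑ p ∈ W, (ξ p + rr p * cap p)) 2 (1 / M) / 2 +
      ∑ i ∈ range M, (if M * x (1 + i) ≤ Real.exp (D0 / 2) then 0 else x (1 + i)) ≤ rr p / 8)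
    (hcap : 32 * (h.natDegree : ℝ) ^ 2 * Dp + 1 ≤ cap p) (hat : 8 * Dp ≤ rr p * p)
    (hsmall : 1024 * h.natDegree * Dp ^ 3 * klu x 1 M p ≤ rr p ^ 2 * √(p : ℝ))
    {X Y : Type*} [Fintype X] [Fintype Y] {v : X → ℕ} {w : Y → ℕ} (hX : Rs X p v)
    (hY : Rs Y p w) (hv : ∀ x, v x < p) (hw : ∀ y, w y < p) :
    KD (fun _ : X => (Fintype.card X : ℝ)⁻¹) (fun _ : Y => (Fintype.card Y : ℝ)⁻¹)
      (fun b => cm x 1 M p (v b)) (fun b => cm x 1 M p (w b))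
      (fun b c => kN (Hh d) p ((v b : ℤ) - w c)) (4 * h.natDegree / √(p : ℝ)) Dp (rr p / 4)
      √(2 * Dp * klu x 1 M p) := by
  classical
  obtain ⟨hp, hpR, hpk⟩ := hW p hpW
  have hd : 1 ≤ d := hm.mx.1.hd
  have hp0 : (0:ℝ) < p := by exact_mod_cast hp.pos
  have hs : 0 < √(p : ℝ) := Real.sqrt_pos.2 hp0
  have hss : √(p : ℝ) * √(p : ℝ) = p := Real.mul_self_sqrt hp0.le
  have hdeg := hA.natDegree_H hk d hd
  obtain ⟨g1, g2⟩ := good_prime hA hk hp hd hpR hpk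
  have hGN : ∀ b : ℤ, IsCoprime b (p : ℤ) →
      ‖GamN (Hh d) PP b p‖ ≤ 4 * h.natDegree / √(p : ℝ) := by
    intro b hb
    have h3 := (GamN_le hPP hpP (by omega) (by omega) g1 (a := b) (by rw [hdeg]; exact hG b hb)).1
    rwa [hdeg] at h3
  have hk0 : (0:ℝ) ≤ h.natDegree := Nat.cast_nonneg _
  have hρ1 : 4 * (h.natDegree : ℝ) / √(p : ℝ) ≤ 1 := by
    rw [div_le_one hs]
    refine Real.le_sqrt_of_sq_le ?_
    linarith [hp16]
  have hρ2 : (4 * (h.natDegree : ℝ) / √(p : ℝ)) ^ 2 * p = 16 * (h.natDegree : ℝ) ^ 2 := by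
    rw [div_pow, Real.sq_sqrt hp0.le]
    field_simp
    ring
  refine kd_of_state hm.mx.1.law le_rfl hξ hrr (maxI_power hξ hrr hm h2 hD) hPP hpW hpP
    (by positivity) hρ1 hGN hD1 hDp hr0 hr1 herr0 herr ?_ hat ?_ hX hY hv hw
  · have : 2 * (4 * (h.natDegree : ℝ) / √(p : ℝ)) ^ 2 * p * Dp =
        32 * (h.natDegree : ℝ) ^ 2 * Dp := by
      rw [mul_assoc 2, hρ2]; ring
    rw [this]
    exact hcap
  · have : 256 * (4 * (h.natDegree : ℝ) / √(p : ℝ)) * Dp ^ 3 * klu x 1 M p =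
        (1024 * h.natDegree * Dp ^ 3 * klu x 1 M p) / √(p : ℝ) := by ring
    rw [this, div_le_iff₀ hs]
    exact hsmall

end Vale.Agent.P042.H383
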